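import Vale.Agent.P066.Cone

/-!
Edge weights, the one-clique state functions and elementary summation lemmas.
-/

open scoped BigOperators
open MvPolynomial (X C esymm)

namespace Vale.Agent.P066

variable {N : ℕ}

instance isRightCancelAddPolyA : IsRightCancelAdd (Polynomial (A N)) :=
  letI h : AddCancelMonoid (Polynomial (A N)) := inferInstance
  h.toAddRightCancelMonoid.toAddRightCancelSemigroup.toIsRightCancelAdd


/-- edge weight inside the colour polynomial ring -/
noncomputable def w (a b : Fin N) : A N := K (psi a b)

/-- the variable `q` inside the colour polynomial ring -/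
noncomputable def qq : A N := K q

lemma w_self (a : Fin N) : w a a = 0 := by simp [w, psi]

lemma w_of_lt {a b : Fin N} (h : a < b) : w a b = qq := by simp [w, qq, psi, h]

lemma w_of_gt {a b : Fin N} (h : b < a) : w a b = 1 := by
  simp [w, psi, h.ne', h.not_gt]

lemma w_mul_swap {a b : Fin N} (h : a ≠ b) : w a b * w b a = qq := by
  rcases lt_or_gt_of_ne h with h | h
  · simp [w_of_lt h, w_of_gt h]
  · simp [w_of_lt h, w_of_gt h]

lemma w_sq {a b : Fin N} (h : a ≠ b) : w a b * w a b = (1 + qq) * w a b - qq := by
  rcases lt_or_gt_of_ne h with h | h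
  · rw [w_of_lt h]; ring
  · rw [w_of_gt h]; ring

/-- product of the weights from `a` to all members of `V` -/
noncomputable def wout (a : Fin N) (V : Finset (Fin N)) : A N := ∏ v ∈ V, w a v

/-- product of the weights from all members of `V` to `h` -/
noncomputable def win (V : Finset (Fin N)) (h : Fin N) : A N := ∏ v ∈ V, w v h

lemma wout_zero {a : Fin N} {V : Finset (Fin N)} (h : a ∈ V) : wout a V = 0 :=
  Finset.prod_eq_zero h (w_self a)

lemma win_zero {a : Fin N} {V : Finset (Fin N)} (h : a ∈ V) : win V a = 0 :=
  Finset.prod_eq_zero h (w_self a)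

/-- state of the last vertices (with colour set `V`) of a clique with `a` further vertices -/
noncomputable def z (a : ℕ) (V : Finset (Fin N)) : A N :=
  ∑ T ∈ Finset.univ.powersetCard a, ∏ t ∈ T, X t * wout t V

lemma z_zero (V : Finset (Fin N)) : z 0 V = 1 := by simp [z]

lemma z_empty (a : ℕ) : z a (∅ : Finset (Fin N)) = ee a N := by
  simp [z, wout, ee, esymm]

/-- state on a clique `V` hanging on a cut vertex of an earlier clique with `a` further vertices -/
noncomputable def phi (a : ℕ) (V : Finset (Fin N)) : A N :=
  ∑ c, X c * wout c V * z a {c}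

lemma qn_geom (n : ℕ) : (q - 1) * qn n = q ^ n - 1 := by
  induction n with
  | zero => simp [qn]
  | succ n ih => simp only [qn, pow_succ]; linear_combination q * ih

lemma K_qn_geom (n : ℕ) : (qq - 1) * (K (qn n) : A N) = qq ^ n - 1 := by
  have h := congrArg (K (N := N)) (qn_geom n)
  simpa [K, qq] using h

lemma qq_sub_one_ne : (qq - 1 : A N) ≠ 0 := by
  intro h
  have h' : (K q : A N) = K 1 := by simpa [qq, sub_eq_zero] using h
  have h2 : q = 1 := MvPolynomial.C_injective (Fin N) R h'
  exact absurd (congrArg (fun p : R => p.coeff 1) h2) (by simp [q, Polynomial.coeff_one])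

lemma qq_ne : (qq : A N) ≠ 0 := by
  intro h
  have h2 : q = 0 := MvPolynomial.C_injective (Fin N) R (by simpa [qq, K] using h)
  exact Polynomial.X_ne_zero h2

lemma qn_one_add (n : ℕ) : qn (n + 1) = qn n + q ^ n := by
  rw [qn_add, qn_one, mul_one]

/-- inversion weights of a marked element of a set sum to a q-integer -/
lemma sum_wout_erase (U : Finset (Fin N)) :
    ∑ J ∈ U, wout J (U.erase J) = K (qn U.card) := by
  induction U using Finset.induction_on_max with
  | empty => simp [qn, K]
  | insert m U hm ih =>
      have hmU : m ∉ U := fun h => lt_irrefl m (hm m h)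
      rw [Finset.sum_insert hmU, Finset.card_insert_of_notMem hmU, Finset.erase_insert hmU]
      have h1 : wout m U = 1 := Finset.prod_eq_one fun v hv => w_of_gt (hm v hv)
      have h2 : ∀ J ∈ U, wout J ((insert m U).erase J) = qq * wout J (U.erase J) := by
        intro J hJ
        rw [Finset.erase_insert_of_ne (hm J hJ).ne']
        rw [wout, Finset.prod_insert (fun h => hmU (Finset.mem_of_mem_erase h)),
          w_of_lt (hm J hJ)]
        rfl
      rw [h1, Finset.sum_congr rfl h2, ← Finset.mul_sum, ih]
      simp [qn, qq, K, add_comm]

/-- the same with the weights pointing to the marked element -/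
lemma sum_win_erase (U : Finset (Fin N)) :
    ∑ J ∈ U, win (U.erase J) J = K (qn U.card) := by
  induction U using Finset.induction_on_max with
  | empty => simp [qn, K]
  | insert m U hm ih =>
      have hmU : m ∉ U := fun h => lt_irrefl m (hm m h)
      rw [Finset.sum_insert hmU, Finset.card_insert_of_notMem hmU, Finset.erase_insert hmU]
      have h1 : win U m = qq ^ U.card := by
        rw [win, Finset.prod_congr rfl (fun v hv => w_of_lt (hm v hv)), Finset.prod_const]
      have h2 : ∀ J ∈ U, win ((insert m U).erase J) J = win (U.erase J) J := by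
        intro J hJ
        rw [Finset.erase_insert_of_ne (hm J hJ).ne']
        rw [win, Finset.prod_insert (fun h => hmU (Finset.mem_of_mem_erase h)),
          w_of_gt (hm J hJ), one_mul]
        rfl
      rw [h1, Finset.sum_congr rfl h2, ih, qn_one_add]
      simp [qq, K, add_comm]

end Vale.Agent.P066
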