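import Vale.Agent.P066.Cone

/-!
From the `N[q]`-cone of products of elementary functions to coefficients indexed by partitions.
-/

open scoped BigOperators

namespace Vale.Agent.P066

/-- insert a positive part -/
def insertPart {n : ℕ} (k : ℕ) (hk : 0 < k) (p : n.Partition) : (k + n).Partition where
  parts := k ::ₘ p.parts
  parts_pos := by
    intro i hi
    rcases Multiset.mem_cons.1 hi with rfl | hi
    · exact hk
    · exact p.parts_pos hi
  parts_sum := by simp [p.parts_sum]

lemma esymmPart_insertPart {n : ℕ} (k : ℕ) (hk : 0 < k) (p : n.Partition) (N : ℕ) :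
    MvPolynomial.esymmPart (Fin N) R (insertPart k hk p) =
      ee k N * MvPolynomial.esymmPart (Fin N) R p := by
  simp [MvPolynomial.esymmPart, insertPart, ee]

/-- members of the cone expand over partitions with coefficients in `N[q]` -/
theorem Pos.to_partition {n : ℕ} {F : Fam} (h : Pos n F) :
    ∃ c : n.Partition → Polynomial ℕ, ∀ N, F N = ∑ p : n.Partition,
      MvPolynomial.C ((c p).map (Nat.castRingHom ℤ)) *
        MvPolynomial.esymmPart (Fin N) R p := by
  classical
  induction h with
  | one =>
      refine ⟨fun _ => 1, fun N => ?_⟩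
      have h1 : ∀ p : Nat.Partition 0, MvPolynomial.esymmPart (Fin N) R p = 1 := by
        intro p
        rw [Subsingleton.elim p (Nat.Partition.indiscrete 0), MvPolynomial.esymmPart_zero]
      simp [h1]
  | zero n => exact ⟨fun _ => 0, fun N => by simp⟩
  | add _ _ ih1 ih2 =>
      obtain ⟨c, hc⟩ := ih1
      obtain ⟨d, hd⟩ := ih2
      refine ⟨fun p => c p + d p, fun N => ?_⟩
      simp only [hc N, hd N, Polynomial.map_add, map_add, add_mul, Finset.sum_add_distrib]
  | smul hp _ ih =>
      obtain ⟨c, hc⟩ := ih
      obtain ⟨r, rfl⟩ := hp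
      refine ⟨fun p => r * c p, fun N => ?_⟩
      simp only [hc N, Finset.mul_sum, Polynomial.map_mul, map_mul, mul_assoc]
      rfl
  | @emul n F k _ ih =>
      obtain ⟨c, hc⟩ := ih
      rcases Nat.eq_zero_or_pos k with rfl | hk
      · rw [zero_add]
        exact ⟨c, fun N => by simp [hc N, ee]⟩
      · refine ⟨fun p => ∑ p' ∈ Finset.univ.filter (fun p' => insertPart k hk p' = p), c p',
          fun N => ?_⟩
        simp only [hc N, Finset.mul_sum, Polynomial.map_sum, map_sum, Finset.sum_mul]
        rw [Finset.sum_comm' (t' := Finset.univ) (s' := fun p' => {insertPart k hk p'})]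
        · refine Finset.sum_congr rfl fun p' _ => ?_
          rw [Finset.sum_singleton, esymmPart_insertPart]
          ring
        · intro p p'
          simp [eq_comm]

end Vale.Agent.P066
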