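import Vale.Agent.P066.Transfer

/-!
The cones of states and their closure under the transfer operations.
-/

open scoped BigOperators
open MvPolynomial (X esymm)

namespace Vale.Agent.P066

/-- generators of one-vertex states -/
def Zgen (n : ℕ) (F : (N : ℕ) → Fin N → A N) : Prop := F = fun _ c => z n {c}

/-- one-vertex states -/
abbrev ZP : ℕ → ((N : ℕ) → Fin N → A N) → Prop := Span (α := fun N => Fin N) Zgen

/-- generators of twin-pair states -/
def Sgen (n : ℕ) (F : (N : ℕ) → Finset (Fin N) → A N) : Prop :=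
  (F = fun _ S => z n S) ∨
  (∃ a m, m + 1 ≤ a ∧ n = a + 1 + m ∧
    F = fun _ S => Psi m (phi a) S) ∨
  (2 ≤ n ∧ F = fun _ S => Bst n S)

/-- twin-pair states -/
abbrev SS : ℕ → ((N : ℕ) → Finset (Fin N) → A N) → Prop :=
  Span (α := fun N => Finset (Fin N)) Sgen

/-- twin-pair states up to values on two-element sets -/
def SP (n : ℕ) (F : (N : ℕ) → Finset (Fin N) → A N) : Prop :=
  ∃ G, SS n G ∧ ∀ N (S : Finset (Fin N)), S.card = 2 → F N S = G N S

lemma ZP.base (n : ℕ) : ZP n (fun _ c => z n {c}) := Span.gen rfl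

lemma ZP.ez (k a : ℕ) : ZP (k + a) (fun N c => ee k N * z a {c}) :=
  Span.mul (Pos.ee_self k) (ZP.base a)

lemma ZP.const {n : ℕ} {P : Fam} (h : Pos n P) : ZP n (fun N _ => P N) := by
  have := (Span.mul h (ZP.base 0)).congr (G := fun N _ => P N) (fun N c => by simp [z_zero])
  simpa using this

lemma ZP.sum {ι : Type*} (s : Finset ι) {n : ℕ} (F : ι → (N : ℕ) → Fin N → A N)
    (h : ∀ i ∈ s, ZP n (F i)) : ZP n (fun N c => ∑ i ∈ s, F i N c) := by
  classical
  induction s using Finset.induction_on with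
  | empty => simpa using (Span.zero n : ZP n _)
  | insert i s hi ih =>
      refine ((h i (Finset.mem_insert_self i s)).add
        (ih fun j hj => h j (Finset.mem_insert_of_mem hj))).congr fun N c => ?_
      rw [Finset.sum_insert hi]

/-- first part of the closed formula for a cut state -/
noncomputable def cutA {N : ℕ} (n d : ℕ) (h : Fin N) : A N :=
  ∑ j ∈ Finset.range (d + 1), K (q ^ j * qn (d + 1 - j)) * (ee j N * z (n - j) {h})

/-- second part of the closed formula for a cut state -/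
noncomputable def cutB {N : ℕ} (a n d : ℕ) (h : Fin N) : A N :=
  ∑ i ∈ Finset.range (d + 1), K (q ^ (d + 1) * qn (a - i)) * (ee (n - i) N * z i {h})

lemma ee_zero (N : ℕ) : ee 0 N = 1 := by simp [ee, MvPolynomial.esymm_zero]

lemma qn_rec (k : ℕ) : (1 + q) * qn (k + 1) - q * qn k = qn (k + 2) := by
  simp only [qn]; ring

lemma qn_rec' (k : ℕ) : (1 + q) * qn (k + 1) - qn (k + 2) = q * qn k := by
  simp only [qn]; ring

lemma cut_formula {N : ℕ} : ∀ (d a : ℕ), d ≤ a → ∀ h : Fin N,
    cut a d h = cutA (a + d + 1) d h + cutB a (a + d + 1) d h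
  | 0, a, _, h => by
      rw [cut_zero]
      simp [cutA, cutB, ee_zero, z_zero, qn_one, K]
  | 1, a, ha, h => by
      rw [show (1 : ℕ) = 0 + 1 from rfl, cut_succ a 0 (by omega) h, join1_zero, cut_zero]
      obtain ⟨b, rfl⟩ : ∃ b, a = b + 1 := ⟨a - 1, by omega⟩
      simp only [cutA, cutB, Finset.sum_range_succ, Finset.range_zero, Finset.sum_empty,
        Nat.zero_add, zero_add, Nat.sub_zero, ee_zero, z_zero, pow_zero, qn_one,
        Nat.add_sub_cancel, show 1 + 1 - 1 = 1 from rfl, show b + 1 + 1 + 1 - 1 = b + 1 + 1 by omega]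
      have e : (1 + q) * (q * qn (b + 1 + 1)) - q * qn (b + 1 + 1 + 1) = q ^ 2 * qn (b + 1) := by
        linear_combination q * qn_rec' (b + 1)
      have e' := congrArg (K (N := N)) e
      have e2 : (qn (1 + 1) : R) = 1 + q := by simp [qn]
      rw [e2]
      simp only [K, qq, map_mul, map_sub, map_add, map_one, map_pow] at e' ⊢
      linear_combination ee (b + 1 + 1 + 1) N * e'
  | d + 2, a, ha, h => by
      obtain ⟨b, rfl⟩ : ∃ b, a = b + (d + 2) := ⟨a - (d + 2), by omega⟩
      rw [cut_succ (b + (d + 2)) (d + 1) ha h, join1_eq (b + (d + 2) + 1) d (by omega),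
        cut_formula (d + 1) (b + (d + 2) + 1) (by omega), cut_formula d _ (by omega)]
      set n := b + (d + 2) + (d + 2) + 1 with hn
      rw [show b + (d + 2) + 1 + (d + 1) + 1 = n by omega,
        show b + (d + 2) + 1 + 1 + d + 1 = n by omega]
      have hA : ∀ j ∈ Finset.range (d + 1),
          (K (q ^ j * qn (d + 2 + 1 - j)) * (ee j N * z (n - j) {h}) : A N) =
            (1 + qq) * (K (q ^ j * qn (d + 1 + 1 - j)) * (ee j N * z (n - j) {h})) -
              qq * (K (q ^ j * qn (d + 1 - j)) * (ee j N * z (n - j) {h})) := by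
        intro j hj
        have hj' := Finset.mem_range.1 hj
        obtain ⟨k, hk⟩ : ∃ k, d + 1 - j = k := ⟨_, rfl⟩
        rw [show d + 2 + 1 - j = k + 2 by omega, show d + 1 + 1 - j = k + 1 by omega, hk,
          ← qn_rec k]
        simp only [K, qq, map_mul, map_sub, map_add, map_one]
        ring
      have hB : ∀ i ∈ Finset.range (d + 1),
          (K (q ^ (d + 2 + 1) * qn (b + (d + 2) - i)) * (ee (n - i) N * z i {h}) : A N) =
            (1 + qq) * (K (q ^ (d + 1 + 1) * qn (b + (d + 2) + 1 - i)) *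
                (ee (n - i) N * z i {h})) -
              qq * (K (q ^ (d + 1) * qn (b + (d + 2) + 1 + 1 - i)) *
                (ee (n - i) N * z i {h})) := by
        intro i hi
        have hi' := Finset.mem_range.1 hi
        obtain ⟨k, hk⟩ : ∃ k, b + (d + 2) - i = k := ⟨_, rfl⟩
        rw [show b + (d + 2) + 1 + 1 - i = k + 2 by omega,
          show b + (d + 2) + 1 - i = k + 1 by omega, hk]
        have e := congrArg (K (N := N)) (qn_rec' k)
        simp only [K, qq, map_mul, map_sub, map_add, map_one, map_pow, pow_succ] at e ⊢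
        linear_combination -(MvPolynomial.C q ^ d * MvPolynomial.C q * MvPolynomial.C q *
          (ee (n - i) N * z i {h})) * e
      have hA' := Finset.sum_congr rfl hA
      have hB' := Finset.sum_congr rfl hB
      rw [Finset.sum_sub_distrib, ← Finset.mul_sum, ← Finset.mul_sum] at hA' hB'
      simp only [cutA, cutB, Finset.sum_range_succ _ (d + 2), Finset.sum_range_succ _ (d + 1)]
      rw [hA', hB']
      simp only [show d + 1 + 1 - (d + 1) = 1 by omega, show d + 2 + 1 - (d + 2) = 1 by omega,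
        show d + 2 + 1 - (d + 1) = 2 by omega,
        show b + (d + 2) - (d + 2) = b by omega, show b + (d + 2) - (d + 1 + 1) = b by omega,
        show b + (d + 2) + 1 - (d + 1) = b + 2 by omega,
        show b + (d + 2) - (d + 1) = b + 1 by omega,
        show n - (d + 2) = b + (d + 2) + 1 by omega, show n - (d + 1) = b + (d + 2) + 2 by omega,
        show b + (d + 2) + 1 - d = b + 3 by omega,
        show qn 2 = 1 + q by simp [qn], qn_one]
      have e := congrArg (K (N := N)) (qn_rec' (b + 1))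
      rw [show b + 1 + 2 = b + 3 from rfl, show b + 1 + 1 = b + 2 from rfl] at e
      rw [show b + (d + 2) + 1 + 1 = b + (d + 2) + 2 from rfl,
        show d + 1 + 1 = d + 2 from rfl]
      simp only [K, qq, map_mul, map_sub, map_add, map_one, map_pow, pow_succ] at e ⊢
      linear_combination MvPolynomial.C q ^ d * MvPolynomial.C q * MvPolynomial.C q *
        (ee (b + (d + 2) + 2) N * z (d + 1) {h}) * e

lemma qpow_mem (j : ℕ) : q ^ j ∈ qNat := qNat.pow_mem q_mem j

lemma cut_mem (a d : ℕ) (hd : d ≤ a) : ZP (a + d + 1) (fun N h => cut (N := N) a d h) := by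
  refine Span.congr (F := fun N h => cutA (N := N) (a + d + 1) d h +
    cutB a (a + d + 1) d h) (Span.add ?_ ?_) (fun N h => (cut_formula d a hd h).symm)
  · refine ZP.sum _ _ fun j hj => ?_
    have hj' := Finset.mem_range.1 hj
    exact ((ZP.ez j (a + d + 1 - j)).smul
      (qNat.mul_mem (qpow_mem j) (qn_mem _))).deg (by omega)
  · refine ZP.sum _ _ fun i hi => ?_
    have hi' := Finset.mem_range.1 hi
    exact ((ZP.ez (a + d + 1 - i) i).smul
      (qNat.mul_mem (qpow_mem _) (qn_mem _))).deg (by omega)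

lemma Pos.deg {m n : ℕ} {F : Fam} (h : Pos m F) (e : m = n) : Pos n F := e ▸ h

lemma tot_mem : ∀ (n a : ℕ), n ≤ a + 1 → Pos (a + 1 + n) (fun N => tot (N := N) a n)
  | 0, a, _ => ((Pos.ee_self (a + 1)).smul (qn_mem _)).congr fun N => (tot_zero a).symm
  | n + 1, a, h => by
      refine (((tot_mem n (a + 1) (by omega)).deg (n := a + 1 + (n + 1)) (by omega)).add
        (((Pos.ee_self (a + 1)).mul (Pos.ee_self (n + 1))).smul
          (qNat.mul_mem (qpow_mem (n + 1)) (qn_mem (a - n))))).congr fun N => ?_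
      rw [tot_succ a n (by omega)]

lemma join1_mem (a n : ℕ) (h : n ≤ a) :
    ZP (a + 1 + (n + 1)) (fun N x => join1 (N := N) a (n + 1) x) := by
  refine (Span.add ((cut_mem (a + 1) n (by omega)).deg (n' := a + 1 + (n + 1)) (by omega))
    ((ZP.ez (a + 1) (n + 1)).smul (qNat.mul_mem (qpow_mem (n + 1)) (qn_mem (a - n))))).congr
      fun N x => ?_
  rw [join1_eq a n h]; ring

lemma SP.congr {n : ℕ} {F G : (N : ℕ) → Finset (Fin N) → A N} (h : SP n F)
    (he : ∀ N (S : Finset (Fin N)), S.card = 2 → F N S = G N S) : SP n G := by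
  obtain ⟨H, hH, e⟩ := h
  exact ⟨H, hH, fun N S hS => (he N S hS).symm.trans (e N S hS)⟩

lemma SP.deg {n n' : ℕ} {F : (N : ℕ) → Finset (Fin N) → A N} (h : SP n F) (e : n = n') :
    SP n' F := e ▸ h

lemma SP.of_SS {n : ℕ} {F : (N : ℕ) → Finset (Fin N) → A N} (h : SS n F) : SP n F :=
  ⟨F, h, fun _ _ _ => rfl⟩

lemma SP.zero (n : ℕ) : SP n (fun _ _ => 0) := SP.of_SS (Span.zero n)

lemma SP.add {n : ℕ} {F G : (N : ℕ) → Finset (Fin N) → A N} (h : SP n F) (h' : SP n G) :
    SP n (fun N S => F N S + G N S) := by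
  obtain ⟨H, hH, e⟩ := h
  obtain ⟨H', hH', e'⟩ := h'
  exact ⟨_, hH.add hH', fun N S hS => congrArg₂ (· + ·) (e N S hS) (e' N S hS)⟩

lemma SP.mul {m n : ℕ} {P : Fam} {F : (N : ℕ) → Finset (Fin N) → A N} (hP : Pos m P)
    (h : SP n F) : SP (m + n) (fun N S => P N * F N S) := by
  obtain ⟨H, hH, e⟩ := h
  exact ⟨_, Span.mul hP hH, fun N S hS => congrArg (P N * ·) (e N S hS)⟩

lemma SP.smul {n : ℕ} {p : R} {F : (N : ℕ) → Finset (Fin N) → A N} (hp : p ∈ qNat)
    (h : SP n F) : SP n (fun N S => K p * F N S) :=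
  ((SP.mul (Pos.one.smul hp) h).congr (fun N S _ => by rw [mul_one])).deg (by omega)

lemma SP.base (n : ℕ) : SP n (fun _ S => z n S) := SP.of_SS (Span.gen (Or.inl rfl))

lemma SP.hang (a m : ℕ) (hm : m + 1 ≤ a) :
    SP (a + 1 + m) (fun N S => Psi (N := N) m (phi a) S) :=
  SP.of_SS (Span.gen (Or.inr (Or.inl ⟨a, m, hm, rfl, rfl⟩)))

lemma Bst_zero {N : ℕ} {S : Finset (Fin N)} (hS : S.card = 2) :
    Bst 0 S = K (1 + q) := by
  simp only [Bst, z_zero, mul_one]
  rw [sum_wout_erase, hS]
  simp [qn]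

lemma Bst_one {N : ℕ} {S : Finset (Fin N)} (hS : S.card = 2) :
    Bst 1 S = z 1 S + K q * ee 1 N := by
  obtain ⟨c, d, hcd, rfl⟩ := Finset.card_eq_two.1 hS
  have hz : ∀ V : Finset (Fin N), z 1 V = ∑ t, X t * wout t V := fun V => by
    rw [z]; exact (sum_pc_one (fun T => ∏ t ∈ T, X t * wout t V)).trans (by simp)
  have hw : ∀ t x : Fin N, wout t ({x} : Finset (Fin N)) = w t x := fun t x => by simp [wout]
  rw [Bst, Finset.sum_pair hcd, Finset.erase_insert_of_ne hcd,
    Finset.erase_insert (by simpa using hcd)]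
  have he : (({d} : Finset (Fin N)).erase d) = ∅ := by simp
  rw [he, hz, hz, hz, show ee 1 N = ∑ t, (X t : A N) by
    simp [ee, MvPolynomial.esymm_one]]
  simp only [hw, wout, Finset.prod_pair hcd, Finset.prod_insert (Finset.notMem_empty _),
    Finset.prod_singleton, LawfulSingleton.insert_empty_eq]
  rw [Finset.mul_sum, Finset.mul_sum, Finset.mul_sum, ← Finset.sum_add_distrib,
    ← Finset.sum_add_distrib]
  refine Finset.sum_congr rfl fun t _ => ?_
  rcases lt_trichotomy t c with h1 | h1 | h1 <;> rcases lt_trichotomy t d with h2 | h2 | h2 <;>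
    rcases lt_or_gt_of_ne hcd with h3 | h3
  all_goals
    first
      | (exfalso; omega)
      | (subst h1; simp [w_self, w_of_lt, w_of_gt, qq, h2, h3]; try ring)
      | (subst h2; simp [w_self, w_of_lt, w_of_gt, qq, h1, h3]; try ring)
      | (simp [w_of_lt, w_of_gt, qq, h1, h2, h3]; try ring)

lemma SP.bst : ∀ k : ℕ, SP k (fun N S => Bst (N := N) k S)
  | 0 => ((SP.base 0).smul (qNat.add_mem qNat.one_mem q_mem)).congr
      (fun N S hS => by rw [Bst_zero hS]; simp [z_zero])
  | 1 => ((SP.base 1).add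
      ((SP.mul ((Pos.ee_self 1).smul q_mem) (SP.base 0)).deg (n' := 1) rfl)).congr
      (fun N S hS => by rw [Bst_one hS]; simp [z_zero])
  | k + 2 => SP.of_SS (Span.gen (Or.inr (Or.inr ⟨by omega, rfl⟩)))

end Vale.Agent.P066
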