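import Vale.Agent.P066.QBin

/-!
Families of symmetric functions (one for every number of colours) and the cone spanned over
`N[q]` by products of elementary symmetric functions.
-/

open scoped BigOperators
open MvPolynomial (X C esymm)

namespace Vale.Agent.P066

/-- polynomials in `N` colour variables -/
abbrev A (N : ℕ) := MvPolynomial (Fin N) R

/-- a family of polynomials, one for each number of colours -/
abbrev Fam := (N : ℕ) → A N

/-- coefficients in `N[q]` -/
noncomputable def qNat : Subsemiring R := (Polynomial.mapRingHom (Nat.castRingHom ℤ)).rangeS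

/-- the scalar `p` as a polynomial in colour variables -/
noncomputable abbrev K {N : ℕ} (p : R) : A N := MvPolynomial.C p

/-- elementary symmetric function -/
noncomputable def ee (k : ℕ) : Fam := fun N => esymm (Fin N) R k

/-- homogeneous degree-`n` members of the `N[q]`-cone of products of elementary functions -/
inductive Pos : ℕ → Fam → Prop
  | one : Pos 0 (fun _ => 1)
  | zero (n : ℕ) : Pos n (fun _ => 0)
  | add {n : ℕ} {F G : Fam} : Pos n F → Pos n G → Pos n (fun N => F N + G N)
  | smul {n : ℕ} {F : Fam} {p : R} : p ∈ qNat → Pos n F → Pos n (fun N => K p * F N)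
  | emul {n : ℕ} {F : Fam} (k : ℕ) : Pos n F → Pos (k + n) (fun N => ee k N * F N)

lemma q_mem : q ∈ qNat := ⟨Polynomial.X, by simp [q]⟩

lemma qn_mem (n : ℕ) : qn n ∈ qNat := by
  induction n with
  | zero => exact qNat.zero_mem
  | succ n ih => exact qNat.add_mem qNat.one_mem (qNat.mul_mem q_mem ih)

lemma qb_mem : ∀ n k : ℕ, qb n k ∈ qNat
  | n, 0 => by rw [qb_zero_right]; exact qNat.one_mem
  | 0, k + 1 => qNat.zero_mem
  | n + 1, k + 1 =>
      qNat.add_mem (qb_mem n k) (qNat.mul_mem (qNat.pow_mem q_mem _) (qb_mem n (k + 1)))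

lemma Pos.congr {n : ℕ} {F G : Fam} (h : Pos n F) (he : ∀ N, F N = G N) : Pos n G := by
  have : F = G := funext he
  exact this ▸ h

lemma Pos.ee_self (k : ℕ) : Pos k (ee k) :=
  (Pos.emul k Pos.one).congr (fun N => by simp)

lemma Pos.mul {m n : ℕ} {F G : Fam} (hF : Pos m F) (hG : Pos n G) :
    Pos (m + n) (fun N => F N * G N) := by
  induction hF with
  | one => simpa using hG
  | zero m => exact (Pos.zero (m + n)).congr (fun N => by simp)
  | add _ _ ih1 ih2 => exact (ih1.add ih2).congr (fun N => by simp [add_mul])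
  | smul hp _ ih => exact (ih.smul hp).congr (fun N => by simp [mul_assoc])
  | @emul m F k _ ih =>
      have h := Pos.emul k ih
      rw [← Nat.add_assoc] at h
      exact h.congr (fun N => by simp [mul_assoc])

/-- the `N[q]`-and-`e`-cone spanned by the functions `B` of given degrees -/
inductive Span {α : ℕ → Type} (B : ℕ → ((N : ℕ) → α N → A N) → Prop) :
    ℕ → ((N : ℕ) → α N → A N) → Prop
  | gen {n : ℕ} {F} : B n F → Span B n F
  | zero (n : ℕ) : Span B n (fun _ _ => 0)
  | add {n : ℕ} {F G} : Span B n F → Span B n G → Span B n (fun N x => F N x + G N x)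
  | mul {m n : ℕ} {P : Fam} {F} :
      Pos m P → Span B n F → Span B (m + n) (fun N x => P N * F N x)

lemma Span.congr {α : ℕ → Type} {B : ℕ → ((N : ℕ) → α N → A N) → Prop} {n : ℕ}
    {F G : (N : ℕ) → α N → A N} (h : Span B n F) (he : ∀ N x, F N x = G N x) : Span B n G := by
  have : F = G := funext fun N => funext (he N)
  exact this ▸ h

lemma Span.deg {α : ℕ → Type} {B : ℕ → ((N : ℕ) → α N → A N) → Prop} {n n' : ℕ}
    {F : (N : ℕ) → α N → A N} (h : Span B n F) (he : n = n') : Span B n' F := he ▸ h

lemma Span.smul {α : ℕ → Type} {B : ℕ → ((N : ℕ) → α N → A N) → Prop} {n : ℕ}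
    {F : (N : ℕ) → α N → A N} {p : R} (hp : p ∈ qNat) (h : Span B n F) :
    Span B n (fun N x => K p * F N x) := by
  have := (Span.mul (Pos.one.smul hp) h).congr (G := fun N x => K p * F N x)
    (fun N x => by simp)
  simpa using this

end Vale.Agent.P066
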