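import Vale.Agent.P066.Local

/-!
Double counting of marked subsets and the divided forms of the local identities.
-/

open scoped BigOperators
open MvPolynomial (X esymm)

namespace Vale.Agent.P066

variable {N : ℕ}

/-- all `k`-element colour sets -/
abbrev pc (N k : ℕ) : Finset (Finset (Fin N)) := Finset.univ.powersetCard k

lemma mem_pc {k : ℕ} {V : Finset (Fin N)} : V ∈ pc N k ↔ V.card = k := by
  simp [pc]

/-- a set with a marked `k`-subset is a pair of disjoint sets -/
lemma marked_subsets {M : Type*} [AddCommMonoid M] (k m : ℕ)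
    (F : Finset (Fin N) → Finset (Fin N) → M) (hF : ∀ S T, ¬ Disjoint S T → F S T = 0) :
    ∑ V ∈ pc N (m + k), ∑ S ∈ V.powersetCard k, F S (V \ S) =
      ∑ S ∈ pc N k, ∑ T ∈ pc N m, F S T := by
  have hR : ∑ S ∈ pc N k, ∑ T ∈ pc N m, F S T =
      ∑ x ∈ (pc N k ×ˢ pc N m).filter (fun x => Disjoint x.1 x.2), F x.1 x.2 := by
    rw [Finset.sum_filter, Finset.sum_product]
    refine Finset.sum_congr rfl fun S _ => Finset.sum_congr rfl fun T _ => ?_
    split
    · rfl
    · exact hF S T ‹_›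
  rw [hR, Finset.sum_sigma']
  refine Finset.sum_bij' (fun x _ => (x.2, x.1 \ x.2))
    (fun y _ => ⟨y.2 ∪ y.1, y.1⟩) ?_ ?_ ?_ ?_ ?_
  · rintro ⟨V, S⟩ h
    simp only [Finset.mem_sigma, mem_pc, Finset.mem_powersetCard, Finset.subset_univ, true_and] at h
    simp only [Finset.mem_filter, Finset.mem_product, mem_pc, Finset.mem_powersetCard,
      Finset.subset_univ, true_and]
    refine ⟨⟨h.2.2, ?_⟩, Finset.disjoint_sdiff⟩
    rw [Finset.card_sdiff_of_subset h.2.1]; omega
  · rintro ⟨S, T⟩ h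
    simp only [Finset.mem_filter, Finset.mem_product, mem_pc] at h
    simp only [Finset.mem_sigma, mem_pc, Finset.mem_powersetCard, Finset.subset_univ, true_and]
    refine ⟨?_, Finset.subset_union_right, h.1.1⟩
    rw [Finset.card_union_of_disjoint h.2.symm]; omega
  · rintro ⟨V, S⟩ h
    simp only [Finset.mem_sigma, mem_pc, Finset.mem_powersetCard, Finset.subset_univ, true_and] at h
    simp [Finset.sdiff_union_of_subset h.2.1]
  · rintro ⟨S, T⟩ h
    simp only [Finset.mem_filter, Finset.mem_product, mem_pc] at h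
    simp [Finset.union_sdiff_right, h.2.symm]
  · rintro ⟨V, S⟩ _
    rfl

/-- a set with a marked element -/
lemma marked_element {M : Type*} [AddCommMonoid M] (m : ℕ)
    (F : Fin N → Finset (Fin N) → M) (hF : ∀ J T, J ∈ T → F J T = 0) :
    ∑ V ∈ pc N (m + 1), ∑ J ∈ V, F J (V.erase J) = ∑ T ∈ pc N m, ∑ J, F J T := by
  have hR : ∑ T ∈ pc N m, ∑ J, F J T =
      ∑ x ∈ ((pc N m) ×ˢ (Finset.univ : Finset (Fin N))).filter (fun x => x.2 ∉ x.1),
        F x.2 x.1 := by
    rw [Finset.sum_filter, Finset.sum_product]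
    refine Finset.sum_congr rfl fun T _ => Finset.sum_congr rfl fun J _ => ?_
    split
    · rfl
    · exact hF J T (not_not.1 ‹_›)
  rw [hR, Finset.sum_sigma']
  refine Finset.sum_bij' (fun x _ => (x.1.erase x.2, x.2))
    (fun y _ => ⟨insert y.2 y.1, y.2⟩) ?_ ?_ ?_ ?_ ?_
  · rintro ⟨V, J⟩ h
    simp only [Finset.mem_sigma, mem_pc] at h
    simp only [Finset.mem_filter, Finset.mem_product, mem_pc, Finset.mem_powersetCard,
      Finset.subset_univ, true_and]
    refine ⟨⟨?_, Finset.mem_univ _⟩, Finset.notMem_erase J V⟩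
    rw [Finset.card_erase_of_mem h.2]; omega
  · rintro ⟨T, J⟩ h
    simp only [Finset.mem_filter, Finset.mem_product, mem_pc] at h
    simp only [Finset.mem_sigma, mem_pc]
    exact ⟨by rw [Finset.card_insert_of_notMem h.2]; omega, Finset.mem_insert_self J T⟩
  · rintro ⟨V, J⟩ h
    simp only [Finset.mem_sigma, mem_pc] at h
    simp [Finset.insert_erase h.2]
  · rintro ⟨T, J⟩ h
    simp only [Finset.mem_filter, Finset.mem_product, mem_pc] at h
    simp [Finset.erase_insert h.2]
  · rintro ⟨V, J⟩ _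
    rfl

lemma sum_pc_one {M : Type*} [AddCommMonoid M] (F : Finset (Fin N) → M) :
    ∑ V ∈ pc N 1, F V = ∑ c, F {c} := by
  rw [pc, Finset.powersetCard_one, Finset.sum_map]
  rfl

/-- ordered pairs grouped by their set -/
lemma sum_ordered {M : Type*} [AddCommMonoid M] (h : Fin N → Fin N → M)
    (g : Finset (Fin N) → M) (h0 : ∀ c, h c c = 0)
    (hg : ∀ c d, c ≠ d → h c d + h d c = g {c, d}) :
    ∑ c, ∑ d, h c d = ∑ S ∈ pc N 2, g S := by
  have e := marked_element (N := N) 1
    (fun J T => if J ∈ T then 0 else ∑ o ∈ T, h J o) (fun J T hJ => if_pos hJ)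
  rw [sum_pc_one] at e
  rw [Finset.sum_comm]
  have e2 : ∀ o : Fin N, ∑ J, h J o =
      ∑ J, if J ∈ ({o} : Finset (Fin N)) then 0 else ∑ x ∈ ({o} : Finset (Fin N)), h J x := by
    intro o
    refine Finset.sum_congr rfl fun J _ => ?_
    by_cases hJ : J = o
    · subst hJ; simp [h0]
    · simp [hJ]
  rw [Finset.sum_congr rfl fun o _ => e2 o, ← e]
  refine Finset.sum_congr rfl fun S hS => ?_
  obtain ⟨c, d, hcd, rfl⟩ := Finset.card_eq_two.1 (mem_pc.1 hS)
  rw [Finset.sum_pair hcd, ← hg c d hcd]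
  simp [hcd, hcd.symm, Finset.erase_insert_of_ne]

lemma qb_one (m : ℕ) : qb m 1 = qn m := by
  induction m with
  | zero => rfl
  | succ m ih => simp only [qb, ih, qb_zero_right, zero_add, pow_one, qn]

lemma qb_two (m : ℕ) : (q - 1) * (q ^ 2 - 1) * qb m 2 = (q ^ m - 1) * (q ^ (m - 1) - 1) := by
  induction m with
  | zero => simp [qb]
  | succ m ih =>
      rw [show qb (m + 1) 2 = qb m 1 + q ^ 2 * qb m 2 from rfl, qb_one, Nat.add_sub_cancel]
      have h := qn_geom m
      rcases m with _ | k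
      · simp [qn, qb]
      · rw [Nat.add_sub_cancel] at ih
        linear_combination (q ^ 2 - 1) * h + q ^ 2 * ih

lemma sub_ne_two : (qq * (qq - 1) * (qq ^ 2 - 1) : A N) ≠ 0 := by
  have h2 : (qq ^ 2 - 1 : A N) ≠ 0 := by
    intro h
    have h' : (K (q ^ 2) : A N) = K 1 := by simpa [qq, K, sub_eq_zero] using h
    have h2 : q ^ 2 = 1 := MvPolynomial.C_injective (Fin N) R h'
    exact absurd (congrArg (fun p : R => p.coeff 2) h2) (by simp [q, Polynomial.coeff_one])
  exact mul_ne_zero (mul_ne_zero qq_ne qq_sub_one_ne) h2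

lemma K_qb_two (m : ℕ) :
    (qq - 1) * (qq ^ 2 - 1) * (K (qb m 2) : A N) = (qq ^ m - 1) * (qq ^ (m - 1) - 1) := by
  have h := congrArg (K (N := N)) (qb_two m)
  simpa [K, qq] using h

theorem mark2_one {V : Finset (Fin N)} (hV : 2 ≤ V.card) (h : Fin N) :
    mark2 V (fun s => w s h) =
      K (q ^ 2 * qb (V.card - 1) 2) + K (qn (V.card - 1)) * win V h := by
  apply mul_left_cancel₀ (sub_ne_two (N := N))
  rw [mark2_one_aux, show (K (q ^ 2 * qb (V.card - 1) 2) : A N) =
    qq ^ 2 * K (qb (V.card - 1) 2) by simp [K, qq]]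
  obtain ⟨k, hk⟩ : ∃ k, V.card = k + 2 := ⟨V.card - 2, by omega⟩
  rw [hk, show k + 2 - 1 = k + 1 from rfl]
  have h2 := K_qb_two (N := N) (k + 1)
  rw [Nat.add_sub_cancel] at h2
  have h1 := K_qn_geom (N := N) (k + 1)
  linear_combination -(qq ^ 3) * h2 - qq * (qq ^ 2 - 1) * win V h * h1

lemma mix_comm (V : Finset (Fin N)) (h i : Fin N) : mix V h i = mix V i h := by
  simp only [mix]; ring

theorem mark2_two {V : Finset (Fin N)} (hV : 2 ≤ V.card) {h i : Fin N} (hne : h ≠ i) :
    mark2 V (fun s => w s h * w s i) =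
      K (q ^ 4 * qb (V.card - 2) 2) + K (q * qn (V.card - 2)) * mix V h i +
        win V h * win V i := by
  have H : ∀ a b : Fin N, a < b → mark2 V (fun s => w s a * w s b) =
      K (q ^ 4 * qb (V.card - 2) 2) + K (q * qn (V.card - 2)) * mix V a b +
        win V a * win V b := by
    intro a b hab
    apply mul_left_cancel₀ (sub_ne_two (N := N))
    rw [mark2_two_aux hab, show (K (q ^ 4 * qb (V.card - 2) 2) : A N) =
      qq ^ 4 * K (qb (V.card - 2) 2) by simp [K, qq],
      show (K (q * qn (V.card - 2)) : A N) = qq * K (qn (V.card - 2)) by simp [K, qq]]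
    obtain ⟨k, hk⟩ : ∃ k, V.card = k + 2 := ⟨V.card - 2, by omega⟩
    rw [hk, Nat.add_sub_cancel]
    have h2 := K_qb_two (N := N) k
    have h1 := K_qn_geom (N := N) k
    rcases k with _ | j
    · simp only [show (qb 0 2 : R) = 0 from rfl, qn_zero, K, map_zero]; ring
    · rw [Nat.add_sub_cancel] at h2
      linear_combination -(qq ^ 5) * h2 - qq ^ 2 * (qq ^ 2 - 1) * mix V a b * h1
  rcases lt_or_gt_of_ne hne with hl | hl
  · exact H h i hl
  · have e : (fun s => w s h * w s i) = fun s => w s i * w s h :=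
      funext fun s => mul_comm _ _
    rw [e, H i h hl, mix_comm, mul_comm (win V i)]

end Vale.Agent.P066
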