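import Mathlib

open Polynomial
open scoped BigOperators

namespace Vale.Agent.P066

/-- the coefficient ring of the polynomials in the colour variables -/
abbrev R := Polynomial ℤ

/-- the variable q -/
noncomputable def q : R := Polynomial.X

/-- adjacency below the diagonal: i < j and lo j ≤ i -/
def adj (lo : ℕ → ℕ) (i j : ℕ) : Prop := i < j ∧ lo j ≤ i

instance (lo : ℕ → ℕ) (i j : ℕ) : Decidable (adj lo i j) := by unfold adj; infer_instance

/-- weight of an ordered pair of colours on an edge -/
noncomputable def psi {N : ℕ} (a b : Fin N) : R := if a < b then q else if a = b then 0 else 1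

/-- weight of a pair of vertices -/
noncomputable def pairWt {N : ℕ} (lo : ℕ → ℕ) {n : ℕ} (f : Fin n → Fin N) (p : Fin n × Fin n) : R :=
  if adj lo p.1 p.2 then psi (f p.1) (f p.2) else 1

/-- weight of a colouring -/
noncomputable def wt {N : ℕ} (lo : ℕ → ℕ) {n : ℕ} (f : Fin n → Fin N) : R :=
  ∏ p : Fin n × Fin n, pairWt lo f p

/-- monomial of a colouring -/
noncomputable def mon {N n : ℕ} (f : Fin n → Fin N) : MvPolynomial (Fin N) R :=
  ∏ i, MvPolynomial.X (f i)

/-- chromatic quasisymmetric function in N colours of the graph with lower bound function lo -/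
noncomputable def chi (n : ℕ) (lo : ℕ → ℕ) (N : ℕ) : MvPolynomial (Fin N) R :=
  ∑ f : Fin n → Fin N, MvPolynomial.C (wt lo f) * mon f

end Vale.Agent.P066
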