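import Vale.Agent.P066.Linear

open scoped BigOperators

namespace Vale.Agent.P066

variable {n N : ℕ}

/-- interpolation coefficient -/
noncomputable def acoef (m d r i : ℕ) : R :=
  q ^ ((r - i) * (d - i)) * qb r i * qb (m - r) (d - i)

lemma acoef_step_zero (m d r : ℕ) (hr : r < m) :
    qn (m - r) * acoef m d (r + 1) 0 + qn d * acoef m d r 0 = qn (m - r) * acoef m d r 0 := by
  obtain ⟨t, rfl⟩ : ∃ t, m = r + (t + 1) := ⟨m - r - 1, by omega⟩
  simp only [acoef, Nat.sub_zero, qb_zero_right, Nat.add_sub_cancel_left,
    show r + (t + 1) - (r + 1) = t by omega]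
  have h := qn_mul_qb_succ t d
  rcases Nat.lt_or_ge (t + 1) d with h1 | h1
  · simp [qb_of_lt h1, qb_of_lt (show t < d by omega)]
  · obtain ⟨k, hk⟩ : ∃ k, t + 1 = d + k := ⟨t + 1 - d, by omega⟩
    rw [show t + 1 - d = k by omega] at h
    have : qn (t + 1) = qn d + q ^ d * qn k := by rw [hk, qn_add]
    simp only [this, Nat.add_mul, one_mul, pow_add] at h ⊢
    linear_combination q ^ (r * d) * q ^ d * h

lemma acoef_step_succ (m e r i : ℕ) (hr : r < m) (he : e + 1 ≤ m) (hi : i ≤ e) :
    qn (m - r) * acoef m (e + 1) (r + 1) (i + 1) + qn (e + 1) * acoef m (e + 1) r (i + 1) =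
      qn (m - r) * acoef m (e + 1) r (i + 1) + qn (m - e) * acoef m e r i := by
  obtain ⟨t, rfl⟩ : ∃ t, m = r + (t + 1) := ⟨m - r - 1, by omega⟩
  obtain ⟨j, rfl⟩ : ∃ j, e = i + j := ⟨e - i, by omega⟩
  simp only [acoef, Nat.add_sub_cancel_left, show r + (t + 1) - (r + 1) = t by omega,
    show r + 1 - (i + 1) = r - i by omega, show i + j + 1 - (i + 1) = j by omega]
  rcases Nat.lt_or_ge (t + 1) j with hj | hj
  · simp [qb_of_lt hj, qb_of_lt (show t < j by omega)]
  obtain ⟨k, hk⟩ : ∃ k, t + 1 = j + k := ⟨t + 1 - j, by omega⟩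
  have h := qn_mul_qb_succ t j
  rw [show t + 1 - j = k by omega] at h
  rcases Nat.lt_trichotomy r i with hr' | hr' | hr'
  · simp [qb_of_lt hr', qb_of_lt (show r < i + 1 by omega), qb_of_lt (show r + 1 < i + 1 by omega)]
  · subst hr'
    simp [qb_self, qb_of_lt (show r < r + 1 by omega),
      show r + (t + 1) - (r + j) = k by omega]
    linear_combination h
  · obtain ⟨R', rfl⟩ : ∃ R', r = i + 1 + R' := ⟨r - (i + 1), by omega⟩
    rw [show i + 1 + R' - (i + 1) = R' by omega, show i + 1 + R' - i = R' + 1 by omega,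
      show i + 1 + R' + (t + 1) - (i + j) = (R' + 1) + k by omega]
    have hab : qn (i + 1) * qb (i + 1 + R') (i + 1) = qn (R' + 1) * qb (i + 1 + R') i := by
      rw [qn_mul_qb, show i + 1 + R' - i = R' + 1 by omega]
    have hpas : qb (i + 1 + R' + 1) (i + 1) =
        qb (i + 1 + R') i + q ^ (i + 1) * qb (i + 1 + R') (i + 1) := by simp [qb]
    have e1 : qn (t + 1) = qn j + q ^ j * qn k := by rw [hk, qn_add]
    have e2 : qn (i + j + 1) = qn j + q ^ j * qn (i + 1) := by
      rw [← qn_add]; congr 1; omega
    have e3 : qn (R' + 1 + k) = qn k + q ^ k * qn (R' + 1) := by rw [← qn_add, Nat.add_comm]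
    have e4 : qn (i + 1) + q ^ (i + 1) * qn k = qn k + q ^ k * qn (i + 1) := by
      rw [← qn_add, ← qn_add, Nat.add_comm]
    simp only [e1, e2, e3, hpas, Nat.add_mul, one_mul, pow_add] at h ⊢
    linear_combination (q ^ (R' * j) * q ^ j *
        (qb (i + 1 + R') i + q ^ i * q * qb (i + 1 + R') (i + 1))) * h
      + q ^ (R' * j) * q ^ j * qb (t + 1) j * qb (i + 1 + R') (i + 1) *
          (by simpa [pow_add] using e4 : qn (i + 1) + q ^ i * q * qn k = qn k + q ^ k * qn (i + 1))
      + q ^ (R' * j) * q ^ j * q ^ k * qb (t + 1) j * hab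

/-- adjacency profile of the block V: i0 vertices full, then i1 - i0 at level r, rest empty -/
def prof (lo : ℕ → ℕ) (a b u w i0 i1 r : ℕ) : ℕ → ℕ := fun k =>
  if u ≤ k ∧ k < u + w then
    (if k < u + i0 then a else if k < u + i1 then b - r else b)
  else lo k

/-- hypotheses: a block [a,b) of twins, a block [u,u+w) to the right of it -/
structure Rect (n : ℕ) (lo : ℕ → ℕ) (a b u w L : ℕ) : Prop where
  hab : a ≤ b
  hbu : b ≤ u
  huw : u + w ≤ n
  hL : L ≤ a
  hblock : ∀ i, a ≤ i → i < b → lo i = L
  hout : ∀ j, j < n → ¬(u ≤ j ∧ j < u + w) →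
    ¬(a < lo j ∧ lo j < b) ∧ ¬(u < lo j ∧ lo j < u + w)

lemma prof_step {lo : ℕ → ℕ} {a b u w L : ℕ} (h : Rect n lo a b u w L) (i0 i1 r : ℕ)
    (h01 : i0 < i1) (h1w : i1 ≤ w) (hr : r < b - a) :
    MvPolynomial.C (qn (b - a - r)) *
        (chi n (prof lo a b u w i0 i1 (r + 1)) N - chi n (prof lo a b u w i0 i1 r) N) =
      MvPolynomial.C (qn (i1 - i0)) *
        (chi n (prof lo a b u w (i0 + 1) i1 r) N - chi n (prof lo a b u w i0 i1 r) N) := by
  obtain ⟨hab, hbu, huw, hL, hblock, hout⟩ := h
  have hrow := row_law (N := N) (n := n) (prof lo a b u w i0 i1 r) a (b - r) (u + i0) L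
    (by omega) (by omega) (by omega) hL
    (fun i h1 h2 => by
      rw [prof, if_neg (by omega)]
      exact hblock i h1 (by omega))
    (fun j hj hne => by
      by_cases hin : u ≤ j ∧ j < u + w
      · simp only [prof, hin, and_self, if_true]; split_ifs <;> omega
      · simp only [prof, hin, if_false]
        have := (hout j hj hin).1
        omega)
  have hcol := col_law (N := N) (n := n) (prof lo a b u w i0 i1 r) (b - r - 1) (u + i0) (i1 - i0)
    (by omega) (by omega) (by omega)
    (fun j hj hnin => by
      by_cases hin : u ≤ j ∧ j < u + w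
      · simp only [prof, hin, and_self, if_true]; split_ifs <;> omega
      · simp only [prof, hin, if_false]
        have := (hout j hj hin).2
        omega)
  rw [show b - r - a = b - a - r by omega] at hrow
  have e0 : Function.update (prof lo a b u w i0 i1 r) (u + i0) (b - r) =
      prof lo a b u w i0 i1 r := by
    funext k; simp only [prof, Function.update_apply]; split_ifs <;> omega
  have e0' : colLo (prof lo a b u w i0 i1 r) (b - r - 1) (u + i0) (i1 - i0) 0 =
      prof lo a b u w i0 i1 r := by
    funext k; simp only [prof, colLo]; split_ifs <;> omega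
  have ea : Function.update (prof lo a b u w i0 i1 r) (u + i0) a =
      prof lo a b u w (i0 + 1) i1 r := by
    funext k; simp only [prof, Function.update_apply]; split_ifs <;> omega
  have ew : colLo (prof lo a b u w i0 i1 r) (b - r - 1) (u + i0) (i1 - i0) (i1 - i0) =
      prof lo a b u w i0 i1 (r + 1) := by
    funext k; simp only [prof, colLo]; split_ifs <;> omega
  have e1 : colLo (prof lo a b u w i0 i1 r) (b - r - 1) (u + i0) (i1 - i0) 1 =
      Function.update (prof lo a b u w i0 i1 r) (u + i0) (b - r - 1) := by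
    funext k; simp only [prof, colLo, Function.update_apply]; split_ifs <;> omega
  rw [e0, ea] at hrow
  rw [e0', ew, e1] at hcol
  linear_combination MvPolynomial.C (qn (i1 - i0)) * hrow
    - MvPolynomial.C (qn (b - a - r)) * hcol

/-- interpolation: a rectangle profile is a combination of full/empty profiles -/
theorem interp {lo : ℕ → ℕ} {a b u w L : ℕ} (h : Rect n lo a b u w L) :
    ∀ d i0, i0 + d ≤ w → d ≤ b - a → ∀ r, r ≤ b - a →
      MvPolynomial.C (qb (b - a) d) * chi n (prof lo a b u w i0 (i0 + d) r) N =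
        ∑ i ∈ Finset.range (d + 1), MvPolynomial.C (acoef (b - a) d r i) *
          chi n (prof lo a b u w (i0 + i) (i0 + i) 0) N := by
  intro d
  induction d with
  | zero =>
    intro i0 _ _ r _
    have e : prof lo a b u w i0 i0 r = prof lo a b u w i0 i0 0 := by
      funext k; simp only [prof]; split_ifs <;> omega
    simp [acoef, qb_zero_right, e]
  | succ e ih =>
    intro i0 hw he r hr
    induction r with
    | zero =>
      have e1 : prof lo a b u w i0 (i0 + (e + 1)) 0 = prof lo a b u w i0 i0 0 := by
        have := h.hbu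
        funext k; simp only [prof]; split_ifs <;> omega
      rw [Finset.sum_range_succ', e1]
      simp [acoef, qb_of_lt, qb_zero_right]
    | succ r ihr =>
      have hG := ihr (by omega)
      have hH := ih (i0 + 1) (by omega) (by omega) r (by omega)
      rw [show i0 + 1 + e = i0 + (e + 1) by omega] at hH
      have hs := prof_step (N := N) h i0 (i0 + (e + 1)) r (by omega) hw (by omega)
      rw [show i0 + (e + 1) - i0 = e + 1 by omega] at hs
      have hne : (MvPolynomial.C (qn (b - a - r)) : MvPolynomial (Fin N) R) ≠ 0 := by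
        rw [Ne, MvPolynomial.C_eq_zero]; exact qn_ne_zero (by omega)
      apply mul_left_cancel₀ hne
      have habs : qn (e + 1) * qb (b - a) (e + 1) = qn (b - a - e) * qb (b - a) e :=
        qn_mul_qb _ _
      have habs' := congrArg (MvPolynomial.C (σ := Fin N)) habs
      simp only [map_mul] at habs'
      have hsum : MvPolynomial.C (qn (b - a - r)) *
            (∑ i ∈ Finset.range (e + 1 + 1), MvPolynomial.C (acoef (b - a) (e + 1) (r + 1) i) *
              chi n (prof lo a b u w (i0 + i) (i0 + i) 0) N) =
          (MvPolynomial.C (qn (b - a - r)) - MvPolynomial.C (qn (e + 1))) *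
            (∑ i ∈ Finset.range (e + 1 + 1), MvPolynomial.C (acoef (b - a) (e + 1) r i) *
              chi n (prof lo a b u w (i0 + i) (i0 + i) 0) N) +
          MvPolynomial.C (qn (b - a - e)) *
            (∑ i ∈ Finset.range (e + 1), MvPolynomial.C (acoef (b - a) e r i) *
              chi n (prof lo a b u w (i0 + 1 + i) (i0 + 1 + i) 0) N) := by
        simp only [Finset.sum_range_succ' _ (e + 1), mul_add, Finset.mul_sum]
        have h0 := congrArg (MvPolynomial.C (σ := Fin N))
          (acoef_step_zero (b - a) (e + 1) r (by omega))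
        simp only [map_mul, map_add] at h0
        rw [add_assoc, add_comm
          ((MvPolynomial.C (qn (b - a - r)) - MvPolynomial.C (qn (e + 1))) * _) _, ← add_assoc,
          ← Finset.sum_add_distrib]
        refine congrArg₂ (· + ·) (Finset.sum_congr rfl fun i hi => ?_) ?_
        · have h1 := congrArg (MvPolynomial.C (σ := Fin N))
            (acoef_step_succ (b - a) e r i (by omega) (by omega)
              (by simp only [Finset.mem_range] at hi; omega))
          simp only [map_mul, map_add] at h1
          rw [show i0 + 1 + i = i0 + (i + 1) by omega]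
          linear_combination chi n (prof lo a b u w (i0 + (i + 1)) (i0 + (i + 1)) 0) N * h1
        · linear_combination chi n (prof lo a b u w (i0 + 0) (i0 + 0) 0) N * h0
      linear_combination MvPolynomial.C (qb (b - a) (e + 1)) * hs
        + (MvPolynomial.C (qn (b - a - r)) - MvPolynomial.C (qn (e + 1))) * hG
        + MvPolynomial.C (qn (b - a - e)) * hH
        + chi n (prof lo a b u w (i0 + 1) (i0 + (e + 1)) r) N * habs'
        - hsum

end Vale.Agent.P066
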