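import Vale.Agent.P066.Defs

open scoped BigOperators

namespace Vale.Agent.P066

/-- q-integer -/
noncomputable def qn : ℕ → R
  | 0 => 0
  | n + 1 => 1 + q * qn n

/-- q-factorial -/
noncomputable def qfac : ℕ → R
  | 0 => 1
  | n + 1 => qn (n + 1) * qfac n

/-- q-binomial coefficient -/
noncomputable def qb : ℕ → ℕ → R
  | _, 0 => 1
  | 0, _ + 1 => 0
  | n + 1, k + 1 => qb n k + q ^ (k + 1) * qb n (k + 1)

lemma qn_zero : qn 0 = 0 := rfl

lemma qn_one : qn 1 = 1 := by simp [qn]

lemma qn_add (a b : ℕ) : qn (a + b) = qn a + q ^ a * qn b := by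
  induction a with
  | zero => simp [qn]
  | succ a ih => rw [Nat.succ_add]; simp only [qn, ih]; ring

lemma qn_eval (n : ℕ) : (qn n).eval 1 = n := by
  induction n with
  | zero => simp [qn]
  | succ n ih => simp [qn, ih, q]; ring

lemma qn_ne_zero {n : ℕ} (h : n ≠ 0) : qn n ≠ 0 := by
  intro e
  have := qn_eval n
  rw [e] at this
  simp at this
  omega

lemma qfac_ne_zero (n : ℕ) : qfac n ≠ 0 := by
  induction n with
  | zero => simp [qfac]
  | succ n ih => exact mul_ne_zero (qn_ne_zero (by omega)) ih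

lemma qb_zero_right (n : ℕ) : qb n 0 = 1 := by cases n <;> rfl

lemma qb_of_lt : ∀ {n k : ℕ}, n < k → qb n k = 0
  | 0, k + 1, _ => by simp [qb]
  | n + 1, k + 1, h => by
      simp [qb, qb_of_lt (show n < k by omega), qb_of_lt (show n < k + 1 by omega)]

lemma qb_self (n : ℕ) : qb n n = 1 := by
  induction n with
  | zero => rfl
  | succ n ih => simp [qb, ih, qb_of_lt (show n < n + 1 by omega)]

lemma qb_mul_fac : ∀ (a b : ℕ), qb (a + b) a * (qfac a * qfac b) = qfac (a + b)
  | 0, b => by simp [qb_zero_right, qfac]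
  | a + 1, 0 => by simp [qb_self, qfac]
  | a + 1, b + 1 => by
      have h1 := qb_mul_fac a (b + 1)
      have h2 := qb_mul_fac (a + 1) b
      have e : a + 1 + (b + 1) = (a + (b + 1)) + 1 := by omega
      have e' : a + 1 + b = a + (b + 1) := by omega
      rw [e'] at h2
      rw [e]
      simp only [qb, qfac] at *
      have : qn (a + (b + 1) + 1) = qn (a + 1) + q ^ (a + 1) * qn (b + 1) := by
        rw [← qn_add]; congr 1; omega
      rw [this]
      linear_combination qn (a + 1) * h1 + q ^ (a + 1) * qn (b + 1) * h2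

/-- absorption -/
lemma qn_mul_qb (n k : ℕ) : qn (k + 1) * qb n (k + 1) = qn (n - k) * qb n k := by
  rcases Nat.lt_or_ge k n with h | h
  · obtain ⟨b, rfl⟩ : ∃ b, n = k + 1 + b := ⟨n - k - 1, by omega⟩
    have h1 := qb_mul_fac (k + 1) b
    have h2 := qb_mul_fac k (b + 1)
    rw [show k + (b + 1) = k + 1 + b by omega] at h2
    rw [show k + 1 + b - k = b + 1 by omega]
    simp only [qfac] at h1 h2
    apply mul_right_cancel₀ (mul_ne_zero (qfac_ne_zero k) (qfac_ne_zero b))
    linear_combination h1 - h2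
  · simp [qb_of_lt (show n < k + 1 by omega), show n - k = 0 by omega, qn_zero]

/-- absorption in the upper index -/
lemma qn_mul_qb_succ (n k : ℕ) : qn (n + 1) * qb n k = qn (n + 1 - k) * qb (n + 1) k := by
  rcases Nat.lt_or_ge n k with h | h
  · simp [qb_of_lt h, show n + 1 - k = 0 by omega, qn_zero]
  · obtain ⟨b, rfl⟩ : ∃ b, n = k + b := ⟨n - k, by omega⟩
    have h1 := qb_mul_fac k b
    have h2 := qb_mul_fac k (b + 1)
    rw [show k + (b + 1) = k + b + 1 by omega] at h2
    rw [show k + b + 1 - k = b + 1 by omega]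
    simp only [qfac] at h1 h2
    apply mul_right_cancel₀ (mul_ne_zero (qfac_ne_zero k) (qfac_ne_zero b))
    linear_combination qn (k + b + 1) * h1 - h2

end Vale.Agent.P066
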