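import Vale.Agent.P066.Modular
import Vale.Agent.P066.QBin

open scoped BigOperators

namespace Vale.Agent.P066

variable {n N : ℕ}

/-- sequences satisfying the three term recursion are linear in q-integers -/
lemma linear_of_rec {S : Type*} [CommRing S] (φ : R →+* S) (f : ℕ → S) (m : ℕ)
    (h : ∀ x, x + 2 ≤ m → φ (1 + q) * f (x + 1) = φ q * f x + f (x + 2)) :
    ∀ x, x ≤ m → f x - f 0 = φ (qn x) * (f 1 - f 0) := by
  intro x
  induction x using Nat.strong_induction_on with
  | _ x ih =>
    intro hx
    match x, ih with
    | 0, _ => simp [qn]
    | 1, _ => simp [qn]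
    | x + 2, ih =>
      have h1 := ih (x + 1) (by omega) (by omega)
      have h2 := ih x (by omega) (by omega)
      have h3 := h x hx
      simp only [qn, map_add, map_mul, map_one] at *
      linear_combination -h3 + (1 + φ q) * h1 - φ q * h2

/-- a single vertex to the right of a block of twins -/
theorem row_law (lo : ℕ → ℕ) (a b v L : ℕ) (hab : a < b) (hbv : b ≤ v) (hv : v < n)
    (hL : L ≤ a) (hblock : ∀ i, a ≤ i → i < b → lo i = L)
    (hout : ∀ j, j < n → j ≠ v → ¬(a < lo j ∧ lo j < b)) :
    MvPolynomial.C (qn (b - a)) *
        (chi n (Function.update lo v (b - 1)) N - chi n (Function.update lo v b) N) =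
      chi n (Function.update lo v a) N - chi n (Function.update lo v b) N := by
  have key := linear_of_rec (MvPolynomial.C)
    (fun x => chi n (Function.update lo v (b - x)) N) (b - a) (fun x hx => by
      have := modular_right (N := N) lo (b - x - 2) v (n := n) (by omega) hv (by omega)
        (by rw [hblock _ (by omega) (by omega), hblock _ (by omega) (by omega)])
        (by rw [hblock _ (by omega) (by omega)]; omega)
        (fun j hj hlt hne => by
          intro e
          exact hout j hj hne ⟨by omega, by omega⟩)
      rw [show b - x - 2 + 1 = b - (x + 1) by omega, show b - x - 2 + 2 = b - x by omega,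
        show b - x - 2 = b - (x + 2) by omega] at this
      exact this) (b - a) le_rfl
  simp only [Nat.sub_zero, show b - (b - a) = a by omega] at key
  exact key.symm

/-- profile with the first j vertices of a block adjacent to p -/
def colLo (lo : ℕ → ℕ) (p u w j : ℕ) : ℕ → ℕ := fun k =>
  if u ≤ k ∧ k < u + w then (if k < u + j then p else p + 1) else lo k

/-- a single vertex to the left of a block of twins -/
theorem col_law (lo : ℕ → ℕ) (p u w : ℕ) (hp : p < u) (huw : u + w ≤ n) (hw : 0 < w)
    (hout : ∀ j, j < n → ¬(u ≤ j ∧ j < u + w) → ¬(u < lo j ∧ lo j < u + w)) :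
    MvPolynomial.C (qn w) * (chi n (colLo lo p u w 1) N - chi n (colLo lo p u w 0) N) =
      chi n (colLo lo p u w w) N - chi n (colLo lo p u w 0) N := by
  have key := linear_of_rec (MvPolynomial.C)
    (fun x => chi n (colLo lo p u w x) N) w (fun x hx => by
      have := modular_left (N := N) (n := n) (colLo lo p u w x) p (u + x) (by omega) (by omega)
        (fun j hj hlt => by
          by_cases hin : u ≤ j ∧ j < u + w
          · simp only [colLo, hin, and_self, if_true]; split_ifs <;> omega
          · simp only [colLo, hin, if_false]
            intro e
            exact hout j hj hin ⟨by omega, by omega⟩)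
      convert this using 4 <;> funext k <;>
        simp only [colLo, Function.update_apply] <;> split_ifs <;> omega) w le_rfl
  exact key.symm

end Vale.Agent.P066
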