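import Vale.Agent.P066.Phi

/-!
Local identities: two marked members of a clique seen by one or two outside vertices.
-/

open scoped BigOperators
open MvPolynomial (X esymm)

namespace Vale.Agent.P066

variable {N : ℕ}

/-- one marked member of a clique, weighted by `g` -/
noncomputable def mark1 (V : Finset (Fin N)) (g : Fin N → A N) : A N :=
  ∑ s ∈ V, win (V.erase s) s * g s

/-- two marked members of a clique, weighted by `g` -/
noncomputable def mark2 (V : Finset (Fin N)) (g : Fin N → A N) : A N :=
  ∑ S ∈ V.powersetCard 2, (∏ d ∈ V \ S, wout d S) * ∏ s ∈ S, g s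

lemma mark1_insert {m : Fin N} {V : Finset (Fin N)} (hm : ∀ v ∈ V, v < m) (g : Fin N → A N) :
    mark1 (insert m V) g = mark1 V g + qq ^ V.card * g m := by
  have hmV : m ∉ V := fun h => lt_irrefl m (hm m h)
  rw [mark1, Finset.sum_insert hmV, Finset.erase_insert hmV, add_comm]
  congr 1
  · refine Finset.sum_congr rfl fun s hs => ?_
    rw [Finset.erase_insert_of_ne (hm s hs).ne', win,
      Finset.prod_insert (fun h => hmV (Finset.mem_of_mem_erase h)), w_of_gt (hm s hs), one_mul]
    rfl
  · rw [win, Finset.prod_congr rfl (fun v hv => w_of_lt (hm v hv)), Finset.prod_const]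

lemma mark2_insert {m : Fin N} {V : Finset (Fin N)} (hm : ∀ v ∈ V, v < m) (g : Fin N → A N) :
    qq * mark2 (insert m V) g = qq * mark2 V g + qq ^ V.card * g m * mark1 V g := by
  have hmV : m ∉ V := fun h => lt_irrefl m (hm m h)
  have hT : ∀ S ∈ V.powersetCard 2,
      (∏ d ∈ insert m V \ S, wout d S) * (∏ s ∈ S, g s) =
        (∏ d ∈ V \ S, wout d S) * ∏ s ∈ S, g s := by
    intro S hS
    have hSV := (Finset.mem_powersetCard.1 hS).1
    have h1 : wout m S = 1 := Finset.prod_eq_one fun v hv => w_of_gt (hm v (hSV hv))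
    rw [Finset.insert_sdiff_of_notMem _ (fun h => hmV (hSV h)),
      Finset.prod_insert (fun h => hmV (Finset.mem_sdiff.1 h).1), h1, one_mul]
  have hU : ∀ s ∈ V, qq * ((∏ d ∈ insert m V \ {m, s}, wout d ({m, s} : Finset (Fin N))) *
      ∏ x ∈ ({m, s} : Finset (Fin N)), g x) =
        qq ^ V.card * g m * (win (V.erase s) s * g s) := by
    intro s hs
    have hsm : m ≠ s := fun h => hmV (h ▸ hs)
    have h2 : insert m V \ ({m, s} : Finset (Fin N)) = V.erase s := by
      rw [Finset.insert_sdiff_of_mem _ (Finset.mem_insert_self m {s}), Finset.sdiff_insert,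
        Finset.sdiff_singleton_eq_erase, Finset.erase_eq_of_notMem]
      exact fun h => hmV (Finset.mem_of_mem_erase h)
    have h3 : ∀ d ∈ V.erase s, wout d ({m, s} : Finset (Fin N)) = qq * w d s := fun d hd => by
      rw [wout, Finset.prod_pair hsm, w_of_lt (hm d (Finset.mem_of_mem_erase hd))]
    rw [h2, Finset.prod_congr rfl h3, Finset.prod_pair hsm, Finset.prod_mul_distrib,
      Finset.prod_const, Finset.card_erase_of_mem hs]
    have hc : (qq : A N) ^ V.card = qq * qq ^ (V.card - 1) := by
      rw [← pow_succ']; congr 1; have := Finset.card_pos.2 ⟨s, hs⟩; omega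
    rw [hc, win]; ring
  have hsum : ∀ F : Finset (Fin N) → A N, ∑ S ∈ (insert m V).powersetCard 2, F S =
      ∑ S ∈ V.powersetCard 2, F S + ∑ s ∈ V, F {m, s} := by
    intro F
    rw [Finset.powersetCard_succ_insert hmV, Finset.sum_union, Finset.sum_image]
    · congr 1
      rw [Finset.powersetCard_one, Finset.sum_map]
      rfl
    · intro S hS T hT' hST
      have hS' : S ⊆ V := (Finset.mem_powersetCard.1 hS).1
      have hT'' : T ⊆ V := (Finset.mem_powersetCard.1 hT').1
      rw [← Finset.erase_insert (fun h => hmV (hS' h)), ← Finset.erase_insert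
        (fun h => hmV (hT'' h)), hST]
    · rw [Finset.disjoint_left]
      intro S hS hS'
      rw [Finset.mem_image] at hS'
      obtain ⟨T, _, rfl⟩ := hS'
      exact hmV ((Finset.mem_powersetCard.1 hS).1 (Finset.mem_insert_self m T))
  rw [mark2, hsum, Finset.sum_congr rfl hT, mul_add, Finset.mul_sum (a := qq) (s := V),
    Finset.sum_congr rfl hU, mark2, mark1, Finset.mul_sum (a := qq ^ V.card * g m)]

lemma mark2_empty (g : Fin N → A N) : mark2 (∅ : Finset (Fin N)) g = 0 := by
  rw [mark2, Finset.powersetCard_eq_empty.2 (by simp), Finset.sum_empty]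

lemma win_insert {m : Fin N} {V : Finset (Fin N)} (hm : ∀ v ∈ V, v < m) (h : Fin N) :
    win (insert m V) h = w m h * win V h :=
  Finset.prod_insert fun hh => lt_irrefl m (hm m hh)

lemma key_one {m : Fin N} {V : Finset (Fin N)} (hm : ∀ v ∈ V, v < m) (h : Fin N) :
    (w m h - 1) * (win V h - qq ^ V.card) = 0 := by
  rcases lt_or_ge h m with hl | hl
  · simp [w_of_gt hl]
  · have : win V h = qq ^ V.card := by
      rw [win, Finset.prod_congr rfl (fun v hv => w_of_lt ((hm v hv).trans_le hl)),
        Finset.prod_const]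
    simp [this]

lemma mark1_one (V : Finset (Fin N)) (h : Fin N) :
    (qq - 1) * mark1 V (fun s => w s h) = qq ^ V.card - qq + (qq - 1) * win V h := by
  induction V using Finset.induction_on_max with
  | empty => simp [mark1, win]
  | insert m V hm ih =>
      rw [mark1_insert hm, win_insert hm,
        Finset.card_insert_of_notMem (fun hh => lt_irrefl m (hm m hh)), pow_succ]
      linear_combination ih - (qq - 1) * key_one hm h

lemma mark2_one_aux (V : Finset (Fin N)) (h : Fin N) :
    qq * (qq - 1) * (qq ^ 2 - 1) * mark2 V (fun s => w s h) =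
      (qq ^ V.card - qq) * (qq ^ V.card - qq ^ 2) +
        (qq ^ 2 - 1) * (qq ^ V.card - qq) * win V h := by
  induction V using Finset.induction_on_max with
  | empty => rw [mark2_empty]; simp [win]; try ring
  | insert m V hm ih =>
      rw [win_insert hm, Finset.card_insert_of_notMem (fun hh => lt_irrefl m (hm m hh)), pow_succ]
      have h1 := mark2_insert hm (fun s => w s h)
      have h2 := mark1_one V h
      linear_combination (qq - 1) * (qq ^ 2 - 1) * h1 + ih
        + qq ^ V.card * w m h * (qq ^ 2 - 1) * h2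
        - (qq ^ 2 - 1) * (qq ^ V.card - qq) * key_one hm h

/-- the combination of the two one-vertex products -/
noncomputable def mix (V : Finset (Fin N)) (h i : Fin N) : A N :=
  w h i * win V h + w i h * win V i

lemma two_cases {m : Fin N} {V : Finset (Fin N)} (hm : ∀ v ∈ V, v < m) {h i : Fin N}
    (hhi : h < i) :
    (w m h = 1 ∧ w m i = 1) ∨
    (w m h = 1 ∧ win V i = qq ^ V.card) ∨
    (w m h = 0 ∧ w m i = qq ∧ win V h = qq ^ V.card ∧ win V i = qq ^ V.card) ∨
    (w m h = qq ∧ w m i = qq ∧ win V h = qq ^ V.card ∧ win V i = qq ^ V.card) := by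
  have hq : ∀ x, m ≤ x → win V x = qq ^ V.card := fun x hx => by
    rw [win, Finset.prod_congr rfl (fun v hv => w_of_lt ((hm v hv).trans_le hx)),
      Finset.prod_const]
  rcases lt_trichotomy m h with h1 | h1 | h1
  · exact Or.inr (Or.inr (Or.inr ⟨w_of_lt h1, w_of_lt (h1.trans hhi), hq h h1.le,
      hq i (h1.trans hhi).le⟩))
  · subst h1
    exact Or.inr (Or.inr (Or.inl ⟨w_self m, w_of_lt hhi, hq m le_rfl, hq i hhi.le⟩))
  · rcases lt_or_ge i m with h2 | h2
    · exact Or.inl ⟨w_of_gt h1, w_of_gt h2⟩
    · exact Or.inr (Or.inl ⟨w_of_gt h1, hq i h2⟩)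

lemma mark1_two {h i : Fin N} (hhi : h < i) (V : Finset (Fin N)) :
    (qq - 1) * mark1 V (fun s => w s h * w s i) =
      qq ^ V.card - qq ^ 2 + (qq - 1) * mix V h i := by
  induction V using Finset.induction_on_max with
  | empty => simp [mark1, mix, win, w_of_lt hhi, w_of_gt hhi]; ring
  | insert m V hm ih =>
      rw [mark1_insert hm, mix, win_insert hm, win_insert hm,
        Finset.card_insert_of_notMem (fun hh => lt_irrefl m (hm m hh)), pow_succ]
      rw [mix, w_of_lt hhi, w_of_gt hhi] at *
      rcases two_cases hm hhi with ⟨a, b⟩ | ⟨a, b⟩ | ⟨a, b, c, d⟩ | ⟨a, b, c, d⟩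
      · simp only [a, b] at ih ⊢; linear_combination ih
      · simp only [a, b] at ih ⊢; linear_combination ih
      · simp only [a, b, c, d] at ih ⊢; linear_combination ih
      · simp only [a, b, c, d] at ih ⊢; linear_combination ih

lemma mark2_two_aux {h i : Fin N} (hhi : h < i) (V : Finset (Fin N)) :
    qq * (qq - 1) * (qq ^ 2 - 1) * mark2 V (fun s => w s h * w s i) =
      (qq ^ V.card - qq ^ 2) * (qq ^ V.card - qq ^ 3) +
        (qq ^ 2 - 1) * (qq ^ V.card - qq ^ 2) * mix V h i +
        qq * (qq - 1) * (qq ^ 2 - 1) * (win V h * win V i) := by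
  induction V using Finset.induction_on_max with
  | empty => rw [mark2_empty]; simp [mix, win, w_of_lt hhi, w_of_gt hhi]; ring
  | insert m V hm ih =>
      rw [mix, win_insert hm, win_insert hm,
        Finset.card_insert_of_notMem (fun hh => lt_irrefl m (hm m hh)), pow_succ]
      have h1 := mark2_insert hm (fun s => w s h * w s i)
      have h2 := mark1_two hhi V
      rw [mix, w_of_lt hhi, w_of_gt hhi] at *
      rcases two_cases hm hhi with ⟨a, b⟩ | ⟨a, b⟩ | ⟨a, b, c, d⟩ | ⟨a, b, c, d⟩
      · simp only [a, b] at ih h1 h2 ⊢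
        linear_combination (qq - 1) * (qq ^ 2 - 1) * h1 + ih + qq ^ V.card * (qq ^ 2 - 1) * h2
      · simp only [a, b] at ih h1 h2 ⊢
        linear_combination (qq - 1) * (qq ^ 2 - 1) * h1 + ih
          + qq ^ V.card * (qq ^ 2 - 1) * w m i * h2
      · simp only [a, b, c, d] at ih h1 h2 ⊢
        linear_combination (qq - 1) * (qq ^ 2 - 1) * h1 + ih
      · simp only [a, b, c, d] at ih h1 h2 ⊢
        linear_combination (qq - 1) * (qq ^ 2 - 1) * h1 + ih
          + qq ^ V.card * (qq ^ 2 - 1) * qq * qq * h2

/-- the pair-splitting identity -/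
lemma grow {c d : Fin N} (hcd : c ≠ d) (f : Fin N) :
    w c d * w d f + w d c * w c f = w c f * w d f + qq := by
  rcases lt_trichotomy c f with h1 | h1 | h1 <;> rcases lt_trichotomy d f with h2 | h2 | h2 <;>
    rcases lt_or_gt_of_ne hcd with h3 | h3
  all_goals
    first
      | (exfalso; omega)
      | (subst h1; simp [w_self, w_of_lt, w_of_gt, h2, h3]; try ring)
      | (subst h2; simp [w_self, w_of_lt, w_of_gt, h1, h3]; try ring)
      | (simp [w_of_lt, w_of_gt, h1, h2, h3]; try ring)

end Vale.Agent.P066
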