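import Vale.Agent.P066.Defs

open scoped BigOperators

namespace Vale.Agent.P066

variable {n N : ℕ}

lemma mon_comp_perm (f : Fin n → Fin N) (s : Equiv.Perm (Fin n)) : mon (f ∘ s) = mon f := by
  unfold mon
  exact Equiv.prod_comp s (fun i => MvPolynomial.X (R := R) (f i))

/-- local identity for a vertex to the right of the pair -/
lemma local_right (a b c : Fin N) :
    psi a b * ((1 + q) * psi b c - q - psi a c * psi b c) +
      psi b a * ((1 + q) * psi a c - q - psi b c * psi a c) = 0 := by
  unfold psi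
  rcases lt_trichotomy a b with h | h | h <;> rcases lt_trichotomy a c with h1 | h1 | h1 <;>
    rcases lt_trichotomy b c with h2 | h2 | h2 <;>
    (try subst_vars) <;>
    simp_all [lt_asymm, ne_of_gt] <;>
    (try (exfalso; omega)) <;> ring

/-- local identity for a vertex to the left of the pair -/
lemma local_left (a b c : Fin N) :
    psi a b * ((1 + q) * psi c a - q - psi c a * psi c b) +
      psi b a * ((1 + q) * psi c b - q - psi c b * psi c a) = 0 := by
  unfold psi
  rcases lt_trichotomy a b with h | h | h <;> rcases lt_trichotomy a c with h1 | h1 | h1 <;>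
    rcases lt_trichotomy b c with h2 | h2 | h2 <;>
    (try subst_vars) <;>
    simp_all [lt_asymm, ne_of_gt] <;>
    (try (exfalso; omega)) <;> ring


/-- product over the pairs outside the exceptional set -/
noncomputable def common (lo : ℕ → ℕ) (S : Finset (Fin n × Fin n)) (f : Fin n → Fin N) : R :=
  ∏ p ∈ Sᶜ, pairWt lo f p

lemma wt_eq_common_mul (lo : ℕ → ℕ) (S : Finset (Fin n × Fin n)) (f : Fin n → Fin N) :
    wt lo f = common lo S f * ∏ p ∈ S, pairWt lo f p := by
  unfold wt common
  rw [mul_comm]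
  exact (Finset.prod_mul_prod_compl S _).symm

lemma common_congr (lo lo' : ℕ → ℕ) (S : Finset (Fin n × Fin n))
    (h : ∀ p : Fin n × Fin n, p ∉ S → (adj lo' p.1 p.2 ↔ adj lo p.1 p.2)) (f : Fin n → Fin N) :
    common lo' S f = common lo S f := by
  unfold common
  refine Finset.prod_congr rfl fun p hp => ?_
  have := h p (Finset.mem_compl.1 hp)
  simp [pairWt, this]

lemma common_swap (lo : ℕ → ℕ) (S : Finset (Fin n × Fin n)) (u u' : Fin n)
    (hS : ∀ p : Fin n × Fin n, p ∈ S ↔ (Equiv.swap u u' p.1, Equiv.swap u u' p.2) ∈ S)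
    (h : ∀ p : Fin n × Fin n, p ∉ S →
      (adj lo (Equiv.swap u u' p.1) (Equiv.swap u u' p.2) ↔ adj lo p.1 p.2))
    (f : Fin n → Fin N) : common lo S (f ∘ Equiv.swap u u') = common lo S f := by
  unfold common
  refine Finset.prod_equiv ((Equiv.swap u u').prodCongr (Equiv.swap u u')) ?_ ?_
  · intro p
    simp only [Finset.mem_compl, Equiv.prodCongr_apply, Prod.map]
    exact not_congr (hS p)
  · intro p hp
    have := h p (Finset.mem_compl.1 hp)
    simp [pairWt, Function.comp_def, this]

lemma three_term (lo0 lo1 lo2 : ℕ → ℕ) (u u' : Fin n) (S : Finset (Fin n × Fin n))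
    (hS : ∀ p : Fin n × Fin n, p ∈ S ↔ (Equiv.swap u u' p.1, Equiv.swap u u' p.2) ∈ S)
    (h01 : ∀ p : Fin n × Fin n, p ∉ S → (adj lo0 p.1 p.2 ↔ adj lo1 p.1 p.2))
    (h21 : ∀ p : Fin n × Fin n, p ∉ S → (adj lo2 p.1 p.2 ↔ adj lo1 p.1 p.2))
    (hinv : ∀ p : Fin n × Fin n, p ∉ S →
      (adj lo1 (Equiv.swap u u' p.1) (Equiv.swap u u' p.2) ↔ adj lo1 p.1 p.2))
    (hloc : ∀ f : Fin n → Fin N,
      ((1 + q) * (∏ p ∈ S, pairWt lo1 f p) - q * (∏ p ∈ S, pairWt lo0 f p)
          - ∏ p ∈ S, pairWt lo2 f p) +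
        ((1 + q) * (∏ p ∈ S, pairWt lo1 (f ∘ Equiv.swap u u') p)
          - q * (∏ p ∈ S, pairWt lo0 (f ∘ Equiv.swap u u') p)
          - ∏ p ∈ S, pairWt lo2 (f ∘ Equiv.swap u u') p) = 0) :
    MvPolynomial.C (1 + q) * chi n lo1 N = MvPolynomial.C q * chi n lo0 N + chi n lo2 N := by
  set L : (Fin n → Fin N) → R := fun f => (1 + q) * (∏ p ∈ S, pairWt lo1 f p)
    - q * (∏ p ∈ S, pairWt lo0 f p) - ∏ p ∈ S, pairWt lo2 f p with hL
  set Z := ∑ f : Fin n → Fin N, MvPolynomial.C (common lo1 S f * L f) * mon f with hZ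
  have e : MvPolynomial.C (1 + q) * chi n lo1 N - (MvPolynomial.C q * chi n lo0 N + chi n lo2 N)
      = Z := by
    simp only [chi, hZ, Finset.mul_sum, ← Finset.sum_add_distrib, ← Finset.sum_sub_distrib]
    refine Finset.sum_congr rfl fun f _ => ?_
    rw [wt_eq_common_mul lo0 S, wt_eq_common_mul lo1 S, wt_eq_common_mul lo2 S,
      common_congr lo1 lo0 S h01, common_congr lo1 lo2 S h21, hL]
    simp only [map_mul, map_sub, map_add, map_one]
    ring
  let T : (Fin n → Fin N) ≃ (Fin n → Fin N) :=
    (Equiv.swap u u').arrowCongr (Equiv.refl (Fin N))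
  have hT : ∀ f, T f = f ∘ Equiv.swap u u' := by
    intro f; funext i; simp [T, Equiv.arrowCongr]
  have hZ2 : Z = ∑ f : Fin n → Fin N,
      MvPolynomial.C (common lo1 S f * L (f ∘ Equiv.swap u u')) * mon f := by
    rw [hZ, ← Equiv.sum_comp T]
    refine Finset.sum_congr rfl fun f _ => ?_
    rw [hT, common_swap lo1 S u u' hS hinv, mon_comp_perm]
  have hzz : Z + Z = 0 := by
    conv => enter [1, 2]; rw [hZ2]
    rw [hZ, ← Finset.sum_add_distrib]
    refine Finset.sum_eq_zero fun f _ => ?_
    rw [← add_mul, ← map_add, ← mul_add]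
    simp only [hL]
    rw [hloc f]
    simp
  have hz : Z = 0 := add_self_eq_zero.mp hzz
  exact sub_eq_zero.mp (e.trans hz)

lemma swap_val (u : ℕ) (hu : u + 1 < n) (i : Fin n) :
    ((Equiv.swap (⟨u, by omega⟩ : Fin n) ⟨u + 1, hu⟩) i).val =
      if i.val = u then u + 1 else if i.val = u + 1 then u else i.val := by
  rw [Equiv.swap_apply_def]
  simp only [Fin.ext_iff]
  split_ifs <;> rfl

/-- modular law, moving vertex to the right of the twin pair -/
theorem modular_right (lo : ℕ → ℕ) (u v : ℕ) (hu : u + 1 < n) (hv : v < n) (huv : u + 1 < v)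
    (h1 : lo u = lo (u + 1)) (h2 : lo (u + 1) ≤ u)
    (hj : ∀ j, j < n → u + 1 < j → j ≠ v → lo j ≠ u + 1) :
    MvPolynomial.C (1 + q) * chi n (Function.update lo v (u + 1)) N =
      MvPolynomial.C q * chi n (Function.update lo v (u + 2)) N
        + chi n (Function.update lo v u) N := by
  let a : Fin n := ⟨u, by omega⟩
  let b : Fin n := ⟨u + 1, hu⟩
  let c : Fin n := ⟨v, hv⟩
  let S : Finset (Fin n × Fin n) := {(a, b), (b, a), (a, c), (b, c)}
  have hab : a ≠ b := by simp [a, b, Fin.ext_iff]
  have hca : c ≠ a := by simp [a, c, Fin.ext_iff]; omega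
  have hcb : c ≠ b := by simp [b, c, Fin.ext_iff]; omega
  have sc : Equiv.swap a b c = c := Equiv.swap_apply_of_ne_of_ne hca hcb
  refine three_term _ _ _ a b S ?_ ?_ ?_ ?_ ?_
  · rintro ⟨i, j⟩
    simp only [S, Finset.mem_insert, Finset.mem_singleton, Prod.mk.injEq, Equiv.swap_apply_eq_iff,
      Equiv.swap_apply_left, Equiv.swap_apply_right, sc]
    tauto
  · rintro ⟨i, j⟩ hp
    simp [S, a, b, c, Fin.ext_iff] at hp
    simp only [adj, Function.update_apply]
    split_ifs <;> omega
  · rintro ⟨i, j⟩ hp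
    simp [S, a, b, c, Fin.ext_iff] at hp
    simp only [adj, Function.update_apply]
    split_ifs <;> omega
  · rintro ⟨i, j⟩ hp
    simp [S, a, b, c, Fin.ext_iff] at hp
    have hi := i.isLt
    have hjl := j.isLt
    have hjj := hj j.val hjl
    simp only [adj, a, b, swap_val, Function.update_apply]
    have e1 : j.val = u → lo j.val = lo u := congrArg lo
    have e2 : j.val = u + 1 → lo j.val = lo (u + 1) := congrArg lo
    split_ifs <;> omega
  · intro f
    have hne : ∀ g : Fin n → Fin N, ∀ L : ℕ → ℕ,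
        ∏ p ∈ S, pairWt L g p =
          pairWt L g (a, b) * (pairWt L g (b, a) * (pairWt L g (a, c) * pairWt L g (b, c))) := by
      intro g L
      simp [S, hab, hab.symm, hca, hcb, hca.symm, hcb.symm]
    have k := local_right (f a) (f b) (f c)
    rw [hne, hne, hne, hne, hne, hne]
    simp only [pairWt, Function.comp_apply, Equiv.swap_apply_left, Equiv.swap_apply_right, sc]
    simp only [adj, a, b, c, Function.update_apply]
    have t1 : ¬ u + 1 < u := by omega
    have t2 : u < v := by omega
    simp [show u ≠ v by omega, show u + 1 ≠ v by omega, t1, t2, huv, h2]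
    simp only [a, b, c] at k
    linear_combination k


/-- modular law, moving vertex to the left of the twin pair -/
theorem modular_left (lo : ℕ → ℕ) (v u : ℕ) (hvu : v < u) (hu : u + 1 < n)
    (hj : ∀ j, j < n → u + 1 < j → lo j ≠ u + 1) :
    MvPolynomial.C (1 + q) *
        chi n (Function.update (Function.update lo (u + 1) (v + 1)) u v) N =
      MvPolynomial.C q *
          chi n (Function.update (Function.update lo (u + 1) (v + 1)) u (v + 1)) N
        + chi n (Function.update (Function.update lo (u + 1) v) u v) N := by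
  let a : Fin n := ⟨u, by omega⟩
  let b : Fin n := ⟨u + 1, hu⟩
  let c : Fin n := ⟨v, by omega⟩
  let S : Finset (Fin n × Fin n) := {(a, b), (b, a), (c, a), (c, b)}
  have hab : a ≠ b := by simp [a, b, Fin.ext_iff]
  have hca : c ≠ a := by simp [a, c, Fin.ext_iff]; omega
  have hcb : c ≠ b := by simp [b, c, Fin.ext_iff]; omega
  have sc : Equiv.swap a b c = c := Equiv.swap_apply_of_ne_of_ne hca hcb
  refine three_term _ _ _ a b S ?_ ?_ ?_ ?_ ?_
  · rintro ⟨i, j⟩
    simp only [S, Finset.mem_insert, Finset.mem_singleton, Prod.mk.injEq, Equiv.swap_apply_eq_iff,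
      Equiv.swap_apply_left, Equiv.swap_apply_right, sc]
    tauto
  · rintro ⟨i, j⟩ hp
    simp [S, a, b, c, Fin.ext_iff] at hp
    simp only [adj, Function.update_apply]
    split_ifs <;> omega
  · rintro ⟨i, j⟩ hp
    simp [S, a, b, c, Fin.ext_iff] at hp
    simp only [adj, Function.update_apply]
    split_ifs <;> omega
  · rintro ⟨i, j⟩ hp
    simp [S, a, b, c, Fin.ext_iff] at hp
    have hi := i.isLt
    have hjl := j.isLt
    have hjj := hj j.val hjl
    simp only [adj, a, b, swap_val, Function.update_apply]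
    split_ifs <;> omega
  · intro f
    have hne : ∀ g : Fin n → Fin N, ∀ L : ℕ → ℕ,
        ∏ p ∈ S, pairWt L g p =
          pairWt L g (a, b) * (pairWt L g (b, a) * (pairWt L g (c, a) * pairWt L g (c, b))) := by
      intro g L
      simp [S, hab, hab.symm, hca, hcb, hca.symm, hcb.symm]
    have k := local_left (f a) (f b) (f c)
    rw [hne, hne, hne, hne, hne, hne]
    simp only [pairWt, Function.comp_apply, Equiv.swap_apply_left, Equiv.swap_apply_right, sc]
    simp only [adj, a, b, c, Function.update_apply]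
    simp [show ¬ u + 1 < u by omega, show v < u + 1 by omega, hvu,
      show v + 1 ≤ u by omega, show v ≤ u by omega]
    simp only [a, b, c] at k
    linear_combination k

end Vale.Agent.P066
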