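import Vale.Agent.P066.Closed

/-!
Closure of the twin-pair cone under the transfer operations, and the cone of ordered pairs.
-/

open scoped BigOperators
open MvPolynomial (X esymm)

namespace Vale.Agent.P066

variable {N : ℕ}

lemma Bst_sum (k : ℕ) (g : Fin N → A N) :
    ∑ S ∈ pc N 2, (∏ s ∈ S, X s * g s) * Bst k S =
      ∑ T ∈ pc N 1, (∏ t ∈ T, X t * g t) * (∑ J, X J * g J * wout J T * z k {J}) := by
  have e := marked_element (N := N) 1
    (fun J T => (∏ t ∈ T, X t * g t) * (X J * g J * wout J T * z k {J}))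
    (fun J T hJ => by simp [wout_zero hJ])
  rw [Finset.sum_congr rfl (fun T (_ : T ∈ pc N 1) => Finset.mul_sum Finset.univ
    (fun J => X J * g J * wout J T * z k {J}) (∏ t ∈ T, X t * g t)), ← e]
  refine Finset.sum_congr rfl fun S _ => ?_
  rw [Bst, Finset.mul_sum]
  refine Finset.sum_congr rfl fun J hJ => ?_
  rw [← Finset.mul_prod_erase S (fun s => X s * g s) hJ]
  ring

lemma t21_Bst (k : ℕ) (h : Fin N) : t21 (Bst k) h = cut k 1 h := by
  rw [t21, Bst_sum, cut]
  refine Finset.sum_congr rfl fun T _ => ?_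
  by_cases hh : h ∈ T
  · rw [Finset.prod_eq_zero hh (by rw [w_self, mul_zero])]; simp
  · rw [phi]
    refine congrArg₂ (· * ·) rfl (Finset.sum_congr rfl fun J _ => ?_)
    rw [wout, wout, Finset.prod_insert hh]; ring

lemma t22_Bst (k : ℕ) (S : Finset (Fin N)) : t22 (Bst k) S = Psi 1 (phi k) S := by
  rw [t22, Bst_sum, Psi]
  refine Finset.sum_congr rfl fun T _ => ?_
  by_cases hd : Disjoint T S
  · rw [phi]
    refine congrArg₂ (· * ·) rfl (Finset.sum_congr rfl fun J _ => ?_)
    rw [wout, wout, wout, Finset.prod_union hd]; ring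
  · rw [Finset.not_disjoint_iff] at hd
    obtain ⟨x, hxT, hxS⟩ := hd
    rw [Finset.prod_eq_zero hxT (by rw [wout_zero hxS, mul_zero])]
    simp

lemma t2m_Bst (k : ℕ) (d : Fin N) :
    t2m (Bst (k + 2)) d = (1 + qq) * z (k + 3) {d} + qq * ee 1 N * z (k + 2) {d}
      + K (q * q * qn (k + 1)) * ee (k + 3) N := by
  have e : ∀ c : Fin N, X c * w c d * Bst (k + 2) {c, d} =
      (1 + qq) * (X c * wout c {d} * z (k + 2) {c}) - qq * (X c * wout c ∅ * z (k + 2) {c})
        + qq * (X c * z (k + 2) {d}) := by
    intro c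
    have h1 : wout c ({d} : Finset (Fin N)) = w c d := by simp [wout]
    have h2 : wout c (∅ : Finset (Fin N)) = 1 := by simp [wout]
    rw [h1, h2]
    by_cases hc : c = d
    · subst hc; rw [w_self]; ring
    · rw [Bst, Finset.sum_pair hc, Finset.erase_insert_of_ne hc,
        Finset.erase_insert (by simpa using hc)]
      have h3 : (({d} : Finset (Fin N)).erase d) = ∅ := by simp
      have h4 : wout d ({c} : Finset (Fin N)) = w d c := by simp [wout]
      simp only [h3, h1, LawfulSingleton.insert_empty_eq, h4]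
      linear_combination X c * z (k + 2) {c} * w_sq hc + X c * z (k + 2) {d} * w_mul_swap hc
  rw [t2m, Finset.sum_congr rfl fun c _ => e c, Finset.sum_add_distrib, Finset.sum_sub_distrib,
    ← Finset.mul_sum, ← Finset.mul_sum, ← Finset.mul_sum, ← phi, ← phi, ← Finset.sum_mul,
    phi_singleton, phi_empty, show (ee 1 N : A N) = ∑ t, X t by
      simp [ee, MvPolynomial.esymm_one]]
  have e' := congrArg (K (N := N)) (qn_rec' (k + 1))
  simp only [K, qq, map_mul, map_sub, map_add, map_one] at e' ⊢
  linear_combination MvPolynomial.C q * ee (k + 3) N * e'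

/-- turn a one-vertex state into a twin-pair state -/
noncomputable def lift (F : Fin N → A N) (S : Finset (Fin N)) : A N :=
  ∑ J ∈ S, wout J (S.erase J) * F J

lemma lift_mem {n : ℕ} {F : (N : ℕ) → Fin N → A N} (h : ZP n F) :
    SP n (fun N S => lift (F N) S) := by
  induction h with
  | gen hF => cases hF; exact SP.bst _
  | zero n => exact (SP.zero n).congr fun N S _ => by simp [lift]
  | add _ _ ih1 ih2 =>
      exact (ih1.add ih2).congr fun N S _ => by simp [lift, mul_add, Finset.sum_add_distrib]
  | mul hP _ ih =>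
      exact (SP.mul hP ih).congr fun N S _ => by
        simp only [lift, Finset.mul_sum]
        exact Finset.sum_congr rfl fun J _ => by ring

lemma lift_pair (F : Fin N → A N) {h i : Fin N} (hne : h ≠ i) :
    lift F {h, i} = w h i * F h + w i h * F i := by
  rw [lift, Finset.sum_pair hne, Finset.erase_insert_of_ne hne,
    Finset.erase_insert (by simpa using hne)]
  simp [wout]

lemma t21_congr {F G : Finset (Fin N) → A N} (h : ∀ S, S.card = 2 → F S = G S) (x : Fin N) :
    t21 F x = t21 G x :=
  Finset.sum_congr rfl fun S hS => by rw [h S (mem_pc.1 hS)]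

lemma t22_congr {F G : Finset (Fin N) → A N} (h : ∀ S, S.card = 2 → F S = G S)
    (S' : Finset (Fin N)) : t22 F S' = t22 G S' :=
  Finset.sum_congr rfl fun S hS => by rw [h S (mem_pc.1 hS)]

lemma t2m_congr {F G : Finset (Fin N) → A N} (h : ∀ S, S.card = 2 → F S = G S) (d : Fin N) :
    t2m F d = t2m G d := by
  refine Finset.sum_congr rfl fun c _ => ?_
  by_cases hc : c = d
  · subst hc; simp [w_self]
  · rw [h _ (Finset.card_pair hc)]

lemma t2m_mem {n : ℕ} {F : (N : ℕ) → Finset (Fin N) → A N} (h : SP n F) :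
    ZP (n + 1) (fun N d => t2m (F N) d) := by
  obtain ⟨G, hG, e⟩ := h
  refine Span.congr ?_ fun N d => (t2m_congr (e N) d).symm
  clear e F
  induction hG with
  | @gen n F hF =>
      rcases hF with rfl | ⟨a, m, hm, rfl, rfl⟩ | ⟨hn, rfl⟩
      · refine ((ZP.base (n + 1)).smul (qn_mem (n + 1))).congr fun N d => ?_
        show _ = t2m (z n) d
        rw [z_eq_Psi n, t2m_Psi, ← z_singleton]; simp
      · refine (((cut_mem a (m + 1) hm).smul (qn_mem (m + 1))).deg (by omega)).congr fun N d => ?_
        exact (t2m_Psi m (phi a) d).symm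
      · obtain ⟨k, rfl⟩ : ∃ k, n = k + 2 := ⟨n - 2, by omega⟩
        refine ((((ZP.base (k + 3)).smul (qNat.add_mem qNat.one_mem q_mem)).deg
          (n' := k + 2 + 1) rfl).add ((((ZP.ez 1 (k + 2)).smul q_mem).deg
            (n' := k + 2 + 1) (by omega)))).add
          ((ZP.const ((Pos.ee_self (k + 3)).smul
            (qNat.mul_mem (qNat.mul_mem q_mem q_mem) (qn_mem (k + 1))))).deg
              (n' := k + 2 + 1) rfl) |>.congr fun N d => ?_
        rw [t2m_Bst]; simp [K, qq, mul_assoc]
  | zero n => exact (Span.zero (n + 1)).congr fun N d => by simp [t2m]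
  | add _ _ ih1 ih2 =>
      exact (ih1.add ih2).congr fun N d => by simp [t2m, mul_add, Finset.sum_add_distrib]
  | @mul m n P F hP _ ih =>
      exact ((Span.mul hP ih).deg (n' := m + n + 1) (by omega)).congr fun N d => by
        simp only [t2m, Finset.mul_sum]
        exact Finset.sum_congr rfl fun c _ => by ring

lemma t21_mem {n : ℕ} {F : (N : ℕ) → Finset (Fin N) → A N} (h : SP n F) :
    ZP (n + 2) (fun N x => t21 (F N) x) := by
  obtain ⟨G, hG, e⟩ := h
  refine Span.congr ?_ fun N d => (t21_congr (e N) d).symm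
  clear e F
  induction hG with
  | @gen n F hF =>
      rcases hF with rfl | ⟨a, m, hm, rfl, rfl⟩ | ⟨hn, rfl⟩
      · refine ((ZP.const ((Pos.ee_self (n + 2)).smul
          (qNat.mul_mem (qpow_mem 2) (qb_mem (n + 1) 2)))).add
          ((ZP.base (n + 2)).smul (qn_mem (n + 1)))).congr fun N x => ?_
        show _ = t21 (z n) x
        rw [z_eq_Psi n, t21_Psi, ← ee_eq, ← z_singleton]; simp
      · refine ((((ZP.const ((tot_mem (m + 2) a (by omega)).smul
          (qNat.mul_mem (qpow_mem 2) (qb_mem (m + 1) 2))))).add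
          ((join1_mem a (m + 1) hm).smul (qn_mem (m + 1)))).deg (by omega)).congr fun N x => ?_
        exact (t21_Psi m (phi a) x).symm
      · refine ((cut_mem n 1 (by omega)).deg (n' := n + 2) rfl).congr fun N x => ?_
        exact (t21_Bst n x).symm
  | zero n => exact (Span.zero (n + 2)).congr fun N d => by simp [t21]
  | add _ _ ih1 ih2 =>
      exact (ih1.add ih2).congr fun N d => by simp [t21, mul_add, Finset.sum_add_distrib]
  | @mul m n P F hP _ ih =>
      exact ((Span.mul hP ih).deg (n' := m + n + 2) (by omega)).congr fun N d => by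
        simp only [t21, Finset.mul_sum]
        exact Finset.sum_congr rfl fun c _ => by ring

lemma t22_mem {n : ℕ} {F : (N : ℕ) → Finset (Fin N) → A N} (h : SP n F) :
    SP (n + 2) (fun N S => t22 (F N) S) := by
  obtain ⟨G, hG, e⟩ := h
  refine SP.congr ?_ fun N S _ => (t22_congr (e N) S).symm
  clear e F
  induction hG with
  | @gen n F hF =>
      rcases hF with rfl | ⟨a, m, hm, rfl, rfl⟩ | ⟨hn, rfl⟩
      · refine (((SP.mul (((Pos.ee_self (n + 2)).smul
            (qNat.mul_mem (qpow_mem 4) (qb_mem n 2)))) (SP.base 0)).deg (n' := n + 2) rfl).add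
          ((lift_mem (ZP.base (n + 2))).smul (qNat.mul_mem q_mem (qn_mem n)))).add
            (SP.base (n + 2)) |>.congr fun N S hS => ?_
        obtain ⟨h, i, hne, rfl⟩ := Finset.card_eq_two.1 hS
        show _ = t22 (z n) {h, i}
        rw [z_eq_Psi n, t22_Psi _ _ hne, lift_pair _ hne, ← ee_eq, ← z_singleton, ← z_singleton]
        simp [z_zero, z, pc]
      · refine (((SP.mul ((tot_mem (m + 2) a (by omega)).smul
              (qNat.mul_mem (qpow_mem 4) (qb_mem m 2))) (SP.base 0)).deg
            (n' := a + 1 + m + 2) (by omega)).add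
          (((lift_mem (join1_mem a (m + 1) hm)).smul (qNat.mul_mem q_mem (qn_mem m))).deg
            (by omega))).add
          (((SP.hang (a + 1) (m + 1) (by omega)).deg (n' := a + 1 + m + 2) (by omega)).add
            ((SP.mul ((Pos.ee_self (a + 1)).smul
              (qNat.mul_mem (qpow_mem (m + 2)) (qn_mem (a - (m + 1))))) (SP.base (m + 2))).deg
              (n' := a + 1 + m + 2) (by omega))) |>.congr fun N S hS => ?_
        obtain ⟨h, i, hne, rfl⟩ := Finset.card_eq_two.1 hS
        rw [t22_Psi _ _ hne, lift_pair _ hne, z_zero, mul_one]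
        have e2 := join2_eq (N := N) a (m + 1) hm {h, i}
        rw [show m + 1 + 1 = m + 2 from rfl] at e2
        simp only [join2, join1, tot] at e2 ⊢
        rw [e2, show m + 1 + 1 = m + 2 from rfl]
      · refine ((SP.hang n 1 (by omega)).deg (n' := n + 2) (by omega)).congr fun N S _ => ?_
        exact (t22_Bst n S).symm
  | zero n => exact (SP.zero (n + 2)).congr fun N d _ => by simp [t22]
  | add _ _ ih1 ih2 =>
      exact (ih1.add ih2).congr fun N d _ => by simp [t22, mul_add, Finset.sum_add_distrib]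
  | @mul m n P F hP _ ih =>
      exact ((SP.mul hP ih).deg (n' := m + n + 2) (by omega)).congr fun N d _ => by
        simp only [t22, Finset.mul_sum]
        exact Finset.sum_congr rfl fun c _ => by ring

end Vale.Agent.P066
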