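import Vale.Agent.P066.Basic

/-!
The key identity expanding the state of a clique that hangs on a cut vertex.
-/

open scoped BigOperators
open MvPolynomial (X esymm)

namespace Vale.Agent.P066

variable {N : ℕ}

/-- generating polynomial `∏ (1 + f t u)` -/
noncomputable def gp (f : Fin N → A N) : Polynomial (A N) :=
  ∏ t, (1 + Polynomial.C (f t) * Polynomial.X)

lemma gp_coeff (f : Fin N → A N) (k : ℕ) :
    (gp f).coeff k = ∑ T ∈ Finset.univ.powersetCard k, ∏ t ∈ T, f t := by
  rw [gp, Finset.prod_one_add, Polynomial.finset_sum_coeff]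
  rw [Finset.powersetCard_eq_filter, Finset.sum_filter]
  refine Finset.sum_congr rfl fun T _ => ?_
  rw [Finset.prod_mul_distrib, Finset.prod_const, ← map_prod, Polynomial.coeff_C_mul_X_pow]
  simp only [eq_comm]

/-- marked-vertex generating polynomial -/
noncomputable def gz (c : Fin N) : Polynomial (A N) := gp fun t => X t * w t c

lemma gz_coeff (c : Fin N) (k : ℕ) : (gz c).coeff k = z k {c} := by
  rw [gz, gp_coeff, z]
  simp [wout]

/-- interpolating generating polynomial with bound `b` -/
noncomputable def gk (b : ℕ) : Polynomial (A N) :=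
  gp fun t => if (t : ℕ) < b then qq * X t else X t

lemma gp_split (f g : Fin N → A N) (c : Fin N) (h : ∀ t, t ≠ c → f t = g t) (h0 : g c = 0) :
    gp f = (1 + Polynomial.C (f c) * (Polynomial.X : Polynomial (A N))) * gp g := by
  unfold gp
  rw [← Finset.mul_prod_erase Finset.univ (fun t => 1 + Polynomial.C (f t) * (Polynomial.X : Polynomial (A N)))
      (Finset.mem_univ c),
    ← Finset.mul_prod_erase Finset.univ (fun t => 1 + Polynomial.C (g t) * (Polynomial.X : Polynomial (A N)))
      (Finset.mem_univ c), h0, map_zero, zero_mul, add_zero, one_mul]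
  refine congrArg _ ?_
  exact Finset.prod_congr rfl fun t ht => by rw [h t (Finset.ne_of_mem_erase ht)]

lemma gk_left (c : Fin N) : gk (c : ℕ) = (1 + Polynomial.C (X c) * (Polynomial.X : Polynomial (A N))) * gz c := by
  have h := gp_split (fun t => if (t : ℕ) < (c : ℕ) then qq * X t else X t)
    (fun t => X t * w t c) c (fun t ht => by
      rcases lt_or_gt_of_ne ht with h | h
      · simp [Fin.lt_def.1 h, w_of_lt h, mul_comm]
      · simp [(Fin.lt_def.1 h).not_gt, w_of_gt h]) (by simp [w_self])
  simpa [gk, gz] using h

lemma gk_right (c : Fin N) :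
    gk ((c : ℕ) + 1) = (1 + Polynomial.C (qq * X c) * (Polynomial.X : Polynomial (A N))) * gz c := by
  have h := gp_split (fun t => if (t : ℕ) < (c : ℕ) + 1 then qq * X t else X t)
    (fun t => X t * w t c) c (fun t ht => by
      rcases lt_or_gt_of_ne ht with h | h
      · simp [Nat.lt_succ_of_lt (Fin.lt_def.1 h), w_of_lt h, mul_comm]
      · have h' : ¬ (t : ℕ) < (c : ℕ) + 1 := by have := Fin.lt_def.1 h; omega
        simp [h', w_of_gt h]) (by simp [w_self])
  simpa [gk, gz] using h

lemma gk_step (c : Fin N) :
    gk ((c : ℕ) + 1) - gk (c : ℕ) =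
      (Polynomial.C qq - 1) * (Polynomial.X : Polynomial (A N)) * (Polynomial.C (X c) * gz c) := by
  rw [gk_left, gk_right]; simp only [map_mul]; ring

/-- sum over the colours below a bound -/
noncomputable def below (f : Fin N → Polynomial (A N)) (M : ℕ) : Polynomial (A N) :=
  ∑ c ∈ Finset.univ.filter (fun c : Fin N => (c : ℕ) < M), f c

lemma below_succ (f : Fin N → Polynomial (A N)) (c : Fin N) :
    below f ((c : ℕ) + 1) = f c + below f (c : ℕ) := by
  have h : Finset.univ.filter (fun d : Fin N => (d : ℕ) < (c : ℕ) + 1) =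
      insert c (Finset.univ.filter (fun d : Fin N => (d : ℕ) < (c : ℕ))) := by
    ext d; simp [Fin.ext_iff]; omega
  rw [below, below, h, Finset.sum_insert (by simp)]

lemma telescope : ∀ M : ℕ, M ≤ N →
    (Polynomial.C qq - 1) * (Polynomial.X : Polynomial (A N)) * below (fun c => Polynomial.C (X c) * gz c) M =
      gk M - gk (N := N) 0
  | 0, _ => by simp [below]; ring
  | M + 1, h => by
      have ih := telescope M (Nat.le_of_succ_le h)
      have hs := gk_step (⟨M, h⟩ : Fin N)
      have hb := below_succ (fun c => Polynomial.C (X c) * gz c) (⟨M, h⟩ : Fin N)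
      simp only at hs hb
      rw [hb]; linear_combination ih - hs

lemma phi_gen (V : Finset (Fin N)) : ∀ M : ℕ, M ≤ N → (∀ v ∈ V, (v : ℕ) < M) →
    (Polynomial.C qq - 1) * (Polynomial.X : Polynomial (A N)) *
        below (fun c => Polynomial.C (X c * wout c V) * gz c) M =
      (Polynomial.C qq - 1) * ∑ J ∈ V, Polynomial.C (wout J (V.erase J)) * gz J
        + gk M - Polynomial.C qq ^ V.card * gk 0 := by
  induction V using Finset.induction_on_max with
  | empty =>
      intro M hM _
      simpa [wout] using telescope M hM
  | insert m V hm ih =>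
      intro M hM hV
      have hmV : m ∉ V := fun h => lt_irrefl m (hm m h)
      have hmM : (m : ℕ) < M := hV m (Finset.mem_insert_self m V)
      have h1 : ∀ J ∈ V, wout J ((insert m V).erase J) = qq * wout J (V.erase J) := by
        intro J hJ
        rw [Finset.erase_insert_of_ne (hm J hJ).ne', wout,
          Finset.prod_insert (fun h => hmV (Finset.mem_of_mem_erase h)), w_of_lt (hm J hJ)]
        rfl
      have h2 : wout m V = 1 := Finset.prod_eq_one fun v hv => w_of_gt (hm v hv)
      set T : Fin N → Polynomial (A N) := fun c => Polynomial.C (X c) * gz c with hT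
      set O : Fin N → Polynomial (A N) :=
        fun c => Polynomial.C (X c * wout c V) * gz c with hO
      have h3 : below (fun c => Polynomial.C (X c * wout c (insert m V)) * gz c) M =
          Polynomial.C qq * below O (m : ℕ) + (below T M - below T ((m : ℕ) + 1)) := by
        unfold below
        rw [Finset.sum_filter, Finset.sum_filter, Finset.sum_filter, Finset.sum_filter,
          Finset.mul_sum, ← Finset.sum_sub_distrib (f := fun c : Fin N => (_ : Polynomial (A N))),
          ← Finset.sum_add_distrib]
        refine Finset.sum_congr rfl fun c _ => ?_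
        have hw : wout c (insert m V) = w c m * wout c V := Finset.prod_insert hmV
        rcases lt_trichotomy c m with h | h | h
        · have h' := Fin.lt_def.1 h
          simp only [hT, hO, hw, w_of_lt h, h', h'.trans hmM, Nat.lt_succ_of_lt h', if_true,
            map_mul]
          ring
        · subst h
          simp [hT, hO, hw, w_self, hmM]
        · have h' := Fin.lt_def.1 h
          have h4 : wout c V = 1 :=
            Finset.prod_eq_one fun v hv => w_of_gt ((hm v hv).trans h)
          simp only [hT, hO, hw, w_of_gt h, h4, h'.not_gt,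
            show ¬ (c : ℕ) < (m : ℕ) + 1 by omega, if_false, one_mul, mul_one]
          ring
      have ih' := ih (m : ℕ) m.isLt.le (fun v hv => Fin.lt_def.1 (hm v hv))
      have t1 := telescope M hM
      have t2 := telescope ((m : ℕ) + 1) m.isLt
      rw [h3, Finset.sum_insert hmV, Finset.erase_insert hmV, h2,
        Finset.sum_congr rfl (fun J hJ => by rw [h1 J hJ, map_mul, mul_assoc]),
        ← Finset.mul_sum, Finset.card_insert_of_notMem hmV]
      have e1 := gk_left m
      have e2 := gk_right m
      simp only [map_mul, map_one] at *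
      linear_combination Polynomial.C qq * ih' + t1 - t2 +
        Polynomial.C qq * e1 - e2

lemma gk_zero_coeff (k : ℕ) : (gk (N := N) 0).coeff k = ee k N := by
  simp [gk, gp_coeff, ee, esymm]

lemma gk_top_coeff (k : ℕ) : (gk (N := N) N).coeff k = qq ^ k * ee k N := by
  rw [gk, gp_coeff, ee, esymm, Finset.mul_sum]
  refine Finset.sum_congr rfl fun T hT => ?_
  rw [Finset.mem_powersetCard] at hT
  simp [Finset.prod_mul_distrib, hT.2]

/-- expansion of the hanging-clique state -/
theorem phi_eq (a : ℕ) (V : Finset (Fin N)) (h : V.card ≤ a + 1) :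
    phi a V = ∑ J ∈ V, wout J (V.erase J) * z (a + 1) {J}
      + K (q ^ V.card * qn (a + 1 - V.card)) * ee (a + 1) N := by
  have hg := congrArg (fun p : Polynomial (A N) => p.coeff (a + 1))
    (phi_gen V N le_rfl (fun v _ => v.isLt))
  have hb : below (fun c => Polynomial.C (X c * wout c V) * gz c) N =
      ∑ c, Polynomial.C (X c * wout c V) * gz c := by
    simp [below]
  have hC : (Polynomial.C qq - 1 : Polynomial (A N)) = Polynomial.C (qq - 1) := by
    rw [map_sub, map_one]
  simp only [hb, hC, ← map_pow, mul_assoc, Polynomial.coeff_C_mul, Polynomial.coeff_X_mul,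
    Polynomial.coeff_sub, Polynomial.coeff_add, Polynomial.finset_sum_coeff, gz_coeff,
    gk_zero_coeff, gk_top_coeff] at hg
  apply mul_left_cancel₀ (qq_sub_one_ne (N := N))
  have hn : V.card + (a + 1 - V.card) = a + 1 := by omega
  have hk : (K (q ^ V.card * qn (a + 1 - V.card)) : A N) =
      qq ^ V.card * K (qn (a + 1 - V.card)) := by simp [K, qq]
  have hq := K_qn_geom (N := N) (a + 1 - V.card)
  have hp : (qq : A N) ^ V.card * qq ^ (a + 1 - V.card) = qq ^ (a + 1) := by
    rw [← pow_add, hn]
  rw [hk]
  simp only [phi, mul_assoc] at hg ⊢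
  linear_combination hg - qq ^ V.card * ee (a + 1) N * hq - ee (a + 1) N * hp

lemma phi_empty (a : ℕ) : phi a (∅ : Finset (Fin N)) = K (qn (a + 1)) * ee (a + 1) N := by
  rw [phi_eq a ∅ (by simp)]; simp

lemma phi_singleton (a : ℕ) (h : Fin N) :
    phi a {h} = z (a + 1) {h} + K (q * qn a) * ee (a + 1) N := by
  rw [phi_eq a {h} (by simp)]; simp [wout]

end Vale.Agent.P066
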