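import Vale.Agent.P066.Ops

/-!
The state of every prefix of a graph in which each vertex has at most two smaller neighbours.
-/

open scoped BigOperators
open MvPolynomial (X esymm)

namespace Vale.Agent.P066

/-- states of an ordered adjacent pair of last vertices -/
inductive KP : ℕ → ((N : ℕ) → Fin N → Fin N → A N) → Prop
  | edge {n : ℕ} {Z : (N : ℕ) → Fin N → A N} :
      ZP n Z → KP n (fun N c d => w c d * Z N c)
  | twin {n : ℕ} {St : (N : ℕ) → Finset (Fin N) → A N} :
      SP n St → KP n (fun N c d => w c d * St N {c, d})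
  | tri {n : ℕ} {St : (N : ℕ) → Finset (Fin N) → A N} :
      SP n St → KP (n + 1) (fun N c d => w c d * ∑ b, X b * w b d * w b c * St N {b, c})
  | add {n : ℕ} {F G} : KP n F → KP n G → KP n (fun N c d => F N c d + G N c d)

lemma KP.congr {n : ℕ} {F G : (N : ℕ) → Fin N → Fin N → A N} (h : KP n F)
    (he : ∀ N c d, F N c d = G N c d) : KP n G := by
  have : F = G := funext fun N => funext fun c => funext fun d => he N c d
  exact this ▸ h

lemma KP.deg {n n' : ℕ} {F : (N : ℕ) → Fin N → Fin N → A N} (h : KP n F) (e : n = n') :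
    KP n' F := e ▸ h

variable {N : ℕ}

lemma sum_second (Z : Fin N → A N) (d : Fin N) :
    ∑ c, X c * (w c d * Z c) = ∑ c, X c * wout c {d} * Z c :=
  Finset.sum_congr rfl fun c _ => by simp [wout, mul_assoc]

lemma edge_marg_mem {n : ℕ} {Z : (N : ℕ) → Fin N → A N} (h : ZP n Z) :
    ZP (n + 1) (fun N d => ∑ c, X c * (w c d * Z N c)) := by
  induction h with
  | @gen n F hF =>
      cases hF
      refine ((cut_mem n 0 (Nat.zero_le n))).congr fun N d => ?_
      rw [sum_second, ← phi, cut_zero, phi_singleton]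
  | zero n => exact (Span.zero (n + 1)).congr fun N d => by simp
  | add _ _ ih1 ih2 =>
      exact (ih1.add ih2).congr fun N d => by simp [mul_add, Finset.sum_add_distrib]
  | @mul m n P F hP _ ih =>
      exact ((Span.mul hP ih).deg (n' := m + n + 1) (by omega)).congr fun N d => by
        simp only [Finset.mul_sum]
        exact Finset.sum_congr rfl fun c _ => by ring

lemma edge_total_mem {n : ℕ} {Z : (N : ℕ) → Fin N → A N} (h : ZP n Z) :
    Pos (n + 1) (fun N => ∑ c, X c * Z N c) := by
  induction h with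
  | @gen n F hF =>
      cases hF
      refine ((Pos.ee_self (n + 1)).smul (qn_mem (n + 1))).congr fun N => ?_
      rw [← phi_empty]; simp [phi, wout]
  | zero n => exact (Pos.zero (n + 1)).congr fun N => by simp
  | add _ _ ih1 ih2 =>
      exact (ih1.add ih2).congr fun N => by simp [mul_add, Finset.sum_add_distrib]
  | @mul m n P F hP _ ih =>
      exact ((hP.mul ih).deg (n := m + n + 1) (by omega)).congr fun N => by
        simp only [Finset.mul_sum]
        exact Finset.sum_congr rfl fun c _ => by ring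

lemma hang_pair_mem {n : ℕ} {Z : (N : ℕ) → Fin N → A N} (h : ZP n Z) :
    SP (n + 1) (fun N S => ∑ c, X c * wout c S * Z N c) := by
  induction h with
  | @gen n F hF =>
      cases hF
      rcases n with _ | a
      · refine (SP.base 1).congr fun N S _ => ?_
        simp only [z_zero, mul_one]
        rw [z]
        exact (sum_pc_one (fun T => ∏ t ∈ T, X t * wout t S)).trans (by simp)
      · refine ((SP.hang (a + 1) 0 (by omega)).deg (n' := a + 1 + 1) rfl).congr fun N S _ => ?_
        simp [Psi, phi, pc]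
  | zero n => exact (SP.zero (n + 1)).congr fun N d _ => by simp
  | add _ _ ih1 ih2 =>
      exact (ih1.add ih2).congr fun N d _ => by simp [mul_add, Finset.sum_add_distrib]
  | @mul m n P F hP _ ih =>
      exact ((SP.mul hP ih).deg (n' := m + n + 1) (by omega)).congr fun N d _ => by
        simp only [Finset.mul_sum]
        exact Finset.sum_congr rfl fun c _ => by ring

lemma tri_marg (St : Finset (Fin N) → A N) (d : Fin N) :
    ∑ c, X c * (w c d * ∑ b, X b * w b d * w b c * St {b, c}) = (1 + qq) * t21 St d := by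
  simp only [Finset.mul_sum]
  rw [Finset.sum_comm, sum_ordered (fun b c => X c * (w c d * (X b * w b d * w b c * St {b, c})))
    (fun S => (1 + qq) * ((∏ s ∈ S, X s * w s d) * St S)) (fun c => by simp [w_self]), t21,
    Finset.mul_sum]
  intro b c hbc
  rw [Finset.prod_pair hbc, Finset.pair_comm c b]
  have h : w b c + w c b = 1 + qq := by
    rcases lt_or_gt_of_ne hbc with h | h
    · rw [w_of_lt h, w_of_gt h, add_comm]
    · rw [w_of_gt h, w_of_lt h]
  linear_combination X b * w b d * (X c * w c d) * St {b, c} * h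

lemma tri_step (St : Finset (Fin N) → A N) {d e : Fin N} (hde : d ≠ e) :
    ∑ c, X c * w c e * (w c d * ∑ b, X b * w b d * w b c * St {b, c}) =
      t22 St {d, e} + qq * t21 St d := by
  simp only [Finset.mul_sum]
  rw [Finset.sum_comm, sum_ordered
    (fun b c => X c * w c e * (w c d * (X b * w b d * w b c * St {b, c})))
    (fun S => (∏ s ∈ S, X s * wout s {d, e}) * St S + qq * ((∏ s ∈ S, X s * w s d) * St S))
    (fun c => by simp [w_self]), t21, t22, Finset.mul_sum, Finset.sum_add_distrib]
  intro b c hbc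
  rw [Finset.prod_pair hbc, Finset.prod_pair hbc, Finset.pair_comm c b]
  simp only [wout, Finset.prod_pair hde]
  linear_combination X b * w b d * (X c * w c d) * St {b, c} * grow hbc e

lemma KP.marg_mem {n : ℕ} {F : (N : ℕ) → Fin N → Fin N → A N} (h : KP n F) :
    ZP (n + 1) (fun N d => ∑ c, X c * F N c d) := by
  induction h with
  | edge hZ => exact edge_marg_mem hZ
  | twin hS => exact (t2m_mem hS).congr fun N d =>
      Finset.sum_congr rfl fun c _ => by ring
  | tri hS =>
      exact ((t21_mem hS).smul (qNat.add_mem qNat.one_mem q_mem)).congr fun N d => by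
        rw [tri_marg]; simp [K, qq]
  | add _ _ ih1 ih2 =>
      exact (ih1.add ih2).congr fun N d => by simp [mul_add, Finset.sum_add_distrib]

lemma KP.step_mem {n : ℕ} {F : (N : ℕ) → Fin N → Fin N → A N} (h : KP n F) :
    KP (n + 1) (fun N d e => w d e * ∑ c, X c * w c e * F N c d) := by
  induction h with
  | edge hZ =>
      refine (KP.twin (hang_pair_mem hZ)).congr fun N d e => ?_
      by_cases hde : d = e
      · subst hde; simp [w_self]
      · refine congrArg₂ (· * ·) rfl (Finset.sum_congr rfl fun c _ => ?_)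
        rw [wout, Finset.prod_pair hde]; ring
  | twin hS =>
      exact (KP.tri hS).congr fun N d e => congrArg₂ (· * ·) rfl
        (Finset.sum_congr rfl fun c _ => by ring)
  | tri hS =>
      refine ((KP.twin (t22_mem hS)).add (KP.edge ((t21_mem hS).smul q_mem))).congr
        fun N d e => ?_
      by_cases hde : d = e
      · subst hde; simp [w_self]
      · rw [tri_step _ hde]; simp only [qq]; ring
  | add _ _ ih1 ih2 =>
      exact (ih1.add ih2).congr fun N d e => by
        simp only [mul_add, Finset.sum_add_distrib]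

/-- sum over colourings of the first `m` vertices weighted by `g` -/
noncomputable def pre (lo : ℕ → ℕ) (m : ℕ) (g : (Fin m → Fin N) → A N) : A N :=
  ∑ f : Fin m → Fin N, K (wt lo f) * mon f * g f

/-- weight of the edges to a new last vertex -/
noncomputable def newW (lo : ℕ → ℕ) {m : ℕ} (f : Fin m → Fin N) (c : Fin N) : A N :=
  ∏ i : Fin m, if adj lo i m then w (f i) c else 1

lemma wt_snoc (lo : ℕ → ℕ) {m : ℕ} (f : Fin m → Fin N) (c : Fin N) :
    (K (wt lo (Fin.snoc f c : Fin (m + 1) → Fin N)) : A N) = K (wt lo f) * newW lo f c := by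
  simp only [wt, newW, K, map_prod, Fintype.prod_prod_type]
  rw [Fin.prod_univ_castSucc]
  have h1 : ∀ j : Fin (m + 1), MvPolynomial.C (pairWt lo (Fin.snoc f c : Fin (m + 1) → Fin N)
      (Fin.last m, j)) = (1 : A N) := by
    intro j
    have hj := j.isLt
    rw [pairWt, if_neg]
    · simp
    · rintro ⟨h, _⟩; simp only [Fin.val_last] at h; omega
  simp only [h1, Finset.prod_const_one, mul_one]
  rw [← Finset.prod_mul_distrib]
  refine Finset.prod_congr rfl fun i _ => ?_
  rw [Fin.prod_univ_castSucc]
  refine congrArg₂ (· * ·) (Finset.prod_congr rfl fun j _ => ?_) ?_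
  · simp [pairWt]
  · simp only [pairWt, Fin.val_castSucc, Fin.val_last, Fin.snoc_castSucc, Fin.snoc_last]
    split <;> simp [w, K]

lemma pre_succ (lo : ℕ → ℕ) (m : ℕ) (g : (Fin (m + 1) → Fin N) → A N) :
    pre lo (m + 1) g =
      pre lo m (fun f => ∑ c, newW lo f c * X c * g (Fin.snoc f c)) := by
  rw [pre, ← (Fin.snocEquiv (fun _ : Fin (m + 1) => Fin N)).sum_comp, Fintype.sum_prod_type,
    Finset.sum_comm, pre]
  refine Finset.sum_congr rfl fun f _ => ?_
  rw [Finset.mul_sum]
  refine Finset.sum_congr rfl fun c _ => ?_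
  rw [show (Fin.snocEquiv (fun _ : Fin (m + 1) => Fin N)) (c, f) = Fin.snoc f c from rfl,
    wt_snoc]
  simp only [mon, Fin.prod_univ_castSucc, Fin.snoc_castSucc, Fin.snoc_last]
  ring

lemma pre_congr (lo : ℕ → ℕ) (m : ℕ) {g g' : (Fin m → Fin N) → A N} (h : ∀ f, g f = g' f) :
    pre lo m g = pre lo m g' :=
  Finset.sum_congr rfl fun f _ => by rw [h f]

/-- the last vertex -/
abbrev v1 {k : ℕ} : Fin (k + 1) := Fin.last k

/-- the last vertex but one -/
abbrev v2 {k : ℕ} : Fin (k + 2) := (Fin.last k).castSucc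

lemma newW_zero (lo : ℕ → ℕ) {m : ℕ} (hm : lo m = m) (f : Fin m → Fin N) (c : Fin N) :
    newW lo f c = 1 :=
  Finset.prod_eq_one fun i _ => by
    rw [if_neg]; rintro ⟨h, h'⟩; omega

lemma newW_one (lo : ℕ → ℕ) {k : ℕ} (hm : lo (k + 1) = k) (f : Fin (k + 1) → Fin N) (c : Fin N) :
    newW lo f c = w (f v1) c := by
  rw [newW, Finset.prod_eq_single (v1 : Fin (k + 1))]
  · rw [if_pos]; exact ⟨by simp, by simp [hm]⟩
  · intro i _ hi
    rw [if_neg]; rintro ⟨h, h'⟩
    have : (i : ℕ) ≠ k := fun e => hi (Fin.ext (by simpa using e))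
    omega
  · simp

lemma newW_two (lo : ℕ → ℕ) {k : ℕ} (hm : lo (k + 2) = k) (f : Fin (k + 2) → Fin N)
    (c : Fin N) : newW lo f c = w (f v2) c * w (f v1) c := by
  rw [newW, Finset.prod_eq_mul (v2 : Fin (k + 2)) v1]
  · rw [if_pos, if_pos]
    · exact ⟨by simp, by simp [hm]⟩
    · exact ⟨by simp, by simp [hm]⟩
  · exact fun e => by simp [Fin.ext_iff] at e
  · intro i _ hi
    rw [if_neg]; rintro ⟨h, h'⟩
    have h1 : (i : ℕ) ≠ k := fun e => hi.1 (Fin.ext (by simpa using e))
    have h2 : (i : ℕ) ≠ k + 1 := fun e => hi.2 (Fin.ext (by simpa using e))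
    omega
  · simp
  · simp

/-- the statement proved about every prefix -/
def Inv (lo : ℕ → ℕ) (m : ℕ) : Prop :=
  (∃ T : Fam, Pos m T ∧ ∀ N, pre (N := N) lo m (fun _ => 1) = T N) ∧
  (∀ k (hk : m = k + 1), ∃ Z : (N : ℕ) → Fin N → A N, ZP k Z ∧
    ∀ N (g : Fin N → A N),
      pre lo m (fun f => g (f (Fin.cast hk.symm v1))) = ∑ c, X c * g c * Z N c) ∧
  (∀ k (hk : m = k + 2), lo (k + 1) ≤ k → ∃ W : (N : ℕ) → Fin N → Fin N → A N, KP k W ∧
    ∀ N (g : Fin N → Fin N → A N),
      pre lo m (fun f => g (f (Fin.cast hk.symm v2)) (f (Fin.cast hk.symm v1))) =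
        ∑ c, ∑ d, X c * X d * g c d * W N c d)

lemma inv_of_last {lo : ℕ → ℕ} {m : ℕ} {Z : (N : ℕ) → Fin N → A N} (hZ : ZP m Z)
    (h : ∀ N (g : Fin N → A N),
      pre lo (m + 1) (fun f => g (f v1)) = ∑ c, X c * g c * Z N c) :
    (∃ T : Fam, Pos (m + 1) T ∧ ∀ N, pre (N := N) lo (m + 1) (fun _ => 1) = T N) ∧
    (∀ k (hk : m + 1 = k + 1), ∃ Z : (N : ℕ) → Fin N → A N, ZP k Z ∧
      ∀ N (g : Fin N → A N),
        pre lo (m + 1) (fun f => g (f (Fin.cast hk.symm v1))) = ∑ c, X c * g c * Z N c) := by
  refine ⟨⟨_, edge_total_mem hZ, fun N => ?_⟩, fun k hk => ?_⟩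
  · simpa using h N (fun _ => 1)
  · obtain rfl : k = m := by omega
    exact ⟨Z, hZ, fun N g => h N g⟩

theorem inv_all (lo : ℕ → ℕ) (n : ℕ) (h1 : ∀ j, j < n → lo j ≤ j)
    (h2 : ∀ j, j < n → j ≤ lo j + 2)
    (hmono : ∀ j, j + 1 < n → lo j ≤ lo (j + 1)) : ∀ m, m ≤ n → Inv lo m := by
  intro m
  induction m with
  | zero =>
      intro _
      refine ⟨⟨fun _ => 1, Pos.one, fun N => ?_⟩, fun k hk => by omega, fun k hk => by omega⟩
      simp [pre, wt, mon]
  | succ m ih =>
      intro hm
      obtain ⟨⟨T, hT, hTe⟩, hZ, hW⟩ := ih (by omega)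
      have hlo := h1 m hm
      have hlo2 := h2 m hm
      by_cases h0 : lo m = m
      · have hP : ∀ N (g : Fin N → A N),
            pre lo (m + 1) (fun f => g (f v1)) = ∑ c, X c * g c * T N := by
          intro N g
          rw [pre_succ, ← hTe]
          simp only [newW_zero lo h0, one_mul, Fin.snoc_last, pre, mul_one, Finset.mul_sum]
          rw [Finset.sum_comm]
          exact Finset.sum_congr rfl fun c _ => Finset.sum_congr rfl fun f _ => by ring
        obtain ⟨i1, i2⟩ := inv_of_last (ZP.const hT) hP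
        refine ⟨i1, i2, fun k hk hadj => ?_⟩
        obtain rfl : m = k + 1 := by omega
        omega
      obtain ⟨k, rfl⟩ : ∃ k, m = k + 1 := ⟨m - 1, by omega⟩
      have hPair : ∃ W : (N : ℕ) → Fin N → Fin N → A N, KP k W ∧
          ∀ N (g : Fin N → Fin N → A N),
            pre lo (k + 2) (fun f => g (f v2) (f v1)) =
              ∑ c, ∑ d, X c * X d * g c d * W N c d := by
        by_cases h1' : lo (k + 1) = k
        · obtain ⟨Z, hZ', hZe⟩ := hZ k rfl
          refine ⟨_, KP.edge hZ', fun N g => ?_⟩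
          rw [pre_succ]
          have e := hZe N (fun c => ∑ d, w c d * X d * g c d)
          simp only [Fin.cast_refl, id] at e
          rw [pre_congr lo (k + 1) (g' := fun f => ∑ d, w (f v1) d * X d * g (f v1) d)
            (fun f => by simp [newW_one lo h1', v2]), e]
          refine Finset.sum_congr rfl fun c _ => ?_
          rw [Finset.mul_sum, Finset.sum_mul]
          exact Finset.sum_congr rfl fun d _ => by ring
        · obtain ⟨l, rfl⟩ : ∃ l, k = l + 1 := ⟨k - 1, by omega⟩
          have hl : lo (l + 1 + 1) = l := by omega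
          have hadj : lo (l + 1) ≤ l := le_trans (hmono (l + 1) (by omega)) (le_of_eq hl)
          obtain ⟨W, hW', hWe⟩ := hW l rfl hadj
          refine ⟨_, hW'.step_mem, fun N g => ?_⟩
          rw [pre_succ]
          have e := hWe N (fun b c => ∑ d, w b d * w c d * X d * g c d)
          simp only [Fin.cast_refl, id] at e
          rw [pre_congr lo (l + 2)
            (g' := fun f => ∑ d, w (f v2) d * w (f v1) d * X d * g (f v1) d)
            (fun f => by simp [newW_two lo hl, v1, v2]), e]
          simp only [Finset.mul_sum, Finset.sum_mul]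
          rw [Finset.sum_comm]
          refine Finset.sum_congr rfl fun c _ => ?_
          rw [Finset.sum_comm]
          exact Finset.sum_congr rfl fun d _ => Finset.sum_congr rfl fun b _ => by ring
      obtain ⟨W, hW', hWe⟩ := hPair
      have hP : ∀ N (g : Fin N → A N),
          pre lo (k + 2) (fun f => g (f v1)) = ∑ d, X d * g d * ∑ c, X c * W N c d := by
        intro N g
        rw [hWe N (fun _ d => g d), Finset.sum_comm]
        simp only [Finset.mul_sum]
        exact Finset.sum_congr rfl fun d _ => Finset.sum_congr rfl fun c _ => by ring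
      obtain ⟨i1, i2⟩ := inv_of_last hW'.marg_mem hP
      refine ⟨i1, i2, fun k' hk' _ => ?_⟩
      obtain rfl : k' = k := by omega
      exact ⟨W, hW', fun N g => hWe N g⟩

/-- positivity for graphs in which every vertex has at most two smaller neighbours -/
theorem chi_mem (lo : ℕ → ℕ) (n : ℕ) (h1 : ∀ j, j < n → lo j ≤ j)
    (h2 : ∀ j, j < n → j ≤ lo j + 2)
    (hmono : ∀ j, j + 1 < n → lo j ≤ lo (j + 1)) : Pos n (fun N => chi n lo N) := by
  obtain ⟨⟨T, hT, hTe⟩, -, -⟩ := inv_all lo n h1 h2 hmono n le_rfl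
  exact hT.congr fun N => by rw [← hTe]; simp [pre, chi]

end Vale.Agent.P066
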