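import Vale.Agent.P066.Counting

/-!
Transfer operations on the state functions and their evaluation.
-/

open scoped BigOperators
open MvPolynomial (X esymm)

namespace Vale.Agent.P066

variable {N : ℕ}

/-- weight of a pair of prefix vertices joined to one new vertex -/
noncomputable def t21 (F : Finset (Fin N) → A N) (h : Fin N) : A N :=
  ∑ S ∈ pc N 2, (∏ s ∈ S, X s * w s h) * F S

/-- weight of a pair of prefix vertices joined to two new vertices -/
noncomputable def t22 (F : Finset (Fin N) → A N) (S' : Finset (Fin N)) : A N :=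
  ∑ S ∈ pc N 2, (∏ s ∈ S, X s * wout s S') * F S

/-- last vertex of a twin pair -/
noncomputable def t2m (F : Finset (Fin N) → A N) (d : Fin N) : A N :=
  ∑ c, X c * w c d * F {c, d}

/-- a twin pair at the end of a clique with `m + 2` vertices carrying the state `Φ` -/
noncomputable def Psi (m : ℕ) (Φ : Finset (Fin N) → A N) (S : Finset (Fin N)) : A N :=
  ∑ T ∈ pc N m, (∏ t ∈ T, X t * wout t S) * Φ (T ∪ S)

/-- pair state with one member attached to an earlier clique -/
noncomputable def Bst (k : ℕ) (S : Finset (Fin N)) : A N :=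
  ∑ J ∈ S, wout J (S.erase J) * z k {J}

/-- total of a hanging clique -/
noncomputable def tot (a n : ℕ) : A N :=
  ∑ V ∈ pc N n, (∏ v ∈ V, X v) * phi a V

/-- hanging clique completely joined to one new vertex -/
noncomputable def join1 (a n : ℕ) (h : Fin N) : A N :=
  ∑ V ∈ pc N n, (∏ v ∈ V, X v * w v h) * phi a V

/-- hanging clique completely joined to two new vertices -/
noncomputable def join2 (a n : ℕ) (S : Finset (Fin N)) : A N :=
  ∑ V ∈ pc N n, (∏ v ∈ V, X v * wout v S) * phi a V

/-- hanging clique ending in one marked vertex -/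
noncomputable def cut (a d : ℕ) (h : Fin N) : A N :=
  ∑ T ∈ pc N d, (∏ t ∈ T, X t * w t h) * phi a (insert h T)

lemma z_eq_Psi (m : ℕ) : (z m : Finset (Fin N) → A N) = Psi m (fun _ => 1) := by
  funext S; simp [z, Psi, pc]

lemma Psi_apply_sum (m : ℕ) (Φ : Finset (Fin N) → A N) (g : Fin N → A N) :
    ∑ S ∈ pc N 2, (∏ s ∈ S, X s * g s) * Psi m Φ S =
      ∑ V ∈ pc N (m + 2), (∏ v ∈ V, X v) * Φ V * mark2 V g := by
  have e := marked_subsets (N := N) 2 m
    (fun S T => (∏ s ∈ S, X s * g s) * ((∏ t ∈ T, X t * wout t S) * Φ (T ∪ S)))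
    (fun S T h => by
      rw [Finset.not_disjoint_iff] at h
      obtain ⟨x, hxS, hxT⟩ := h
      rw [Finset.prod_eq_zero hxT (by rw [wout_zero hxS, mul_zero])]; simp)
  simp only [Psi, Finset.mul_sum]
  rw [← e]
  refine Finset.sum_congr rfl fun V _ => ?_
  rw [mark2, Finset.mul_sum]
  refine Finset.sum_congr rfl fun S hS => ?_
  have hSV := (Finset.mem_powersetCard.1 hS).1
  rw [Finset.sdiff_union_of_subset hSV, Finset.prod_mul_distrib, Finset.prod_mul_distrib,
    ← Finset.prod_sdiff hSV (f := fun v => (X v : A N))]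
  ring

lemma prod_X_win (V : Finset (Fin N)) (h : Fin N) :
    (∏ v ∈ V, X v * w v h : A N) = (∏ v ∈ V, X v) * win V h := by
  rw [Finset.prod_mul_distrib]; rfl

lemma z_singleton (n : ℕ) (h : Fin N) :
    (∑ V ∈ pc N n, ∏ v ∈ V, X v * w v h : A N) = z n {h} := by
  simp [z, pc, wout]

lemma ee_eq (n : ℕ) : (∑ V ∈ pc N n, ∏ v ∈ V, X v : A N) = ee n N := by
  simp [ee, esymm, pc]

lemma t21_Psi (m : ℕ) (Φ : Finset (Fin N) → A N) (h : Fin N) :
    t21 (Psi m Φ) h =
      K (q ^ 2 * qb (m + 1) 2) * ∑ V ∈ pc N (m + 2), (∏ v ∈ V, X v) * Φ V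
        + K (qn (m + 1)) * ∑ V ∈ pc N (m + 2), (∏ v ∈ V, X v * w v h) * Φ V := by
  rw [t21, Psi_apply_sum m Φ (fun s => w s h), Finset.mul_sum, Finset.mul_sum,
    ← Finset.sum_add_distrib]
  refine Finset.sum_congr rfl fun V hV => ?_
  have hc := mem_pc.1 hV
  rw [mark2_one (by omega), hc, show m + 2 - 1 = m + 1 from rfl, prod_X_win]
  ring

lemma t22_Psi (m : ℕ) (Φ : Finset (Fin N) → A N) {h i : Fin N} (hne : h ≠ i) :
    t22 (Psi m Φ) {h, i} =
      K (q ^ 4 * qb m 2) * ∑ V ∈ pc N (m + 2), (∏ v ∈ V, X v) * Φ V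
        + K (q * qn m) *
          (w h i * ∑ V ∈ pc N (m + 2), (∏ v ∈ V, X v * w v h) * Φ V
            + w i h * ∑ V ∈ pc N (m + 2), (∏ v ∈ V, X v * w v i) * Φ V)
        + ∑ V ∈ pc N (m + 2), (∏ v ∈ V, X v * wout v {h, i}) * Φ V := by
  have e : ∀ s : Fin N, wout s {h, i} = w s h * w s i := fun s => Finset.prod_pair hne
  simp only [t22, e]
  rw [Psi_apply_sum m Φ (fun s => w s h * w s i)]
  simp only [Finset.mul_sum, ← Finset.sum_add_distrib]
  refine Finset.sum_congr rfl fun V hV => ?_
  have hc := mem_pc.1 hV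
  rw [mark2_two (by omega) hne, hc, show m + 2 - 2 = m from rfl, prod_X_win, prod_X_win,
    mix, Finset.prod_mul_distrib (f := fun v => (X v : A N)), Finset.prod_mul_distrib]
  rw [show (∏ v ∈ V, w v h) = win V h from rfl, show (∏ v ∈ V, w v i) = win V i from rfl]
  ring

lemma t2m_Psi (m : ℕ) (Φ : Finset (Fin N) → A N) (d : Fin N) :
    t2m (Psi m Φ) d =
      K (qn (m + 1)) * ∑ T ∈ pc N (m + 1), (∏ t ∈ T, X t * w t d) * Φ (insert d T) := by
  have e := marked_element (N := N) m
    (fun c T => X c * w c d * ((∏ t ∈ T, X t * wout t {c, d}) * Φ (T ∪ {c, d})))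
    (fun c T hc => by
      rw [Finset.prod_eq_zero hc (by rw [wout_zero (by simp), mul_zero])]; simp)
  rw [t2m]
  simp only [Psi, Finset.mul_sum]
  rw [Finset.sum_comm, ← e]
  refine Finset.sum_congr rfl fun V hV => ?_
  by_cases hd : d ∈ V
  · rw [Finset.prod_eq_zero hd (by rw [w_self, mul_zero]), zero_mul, mul_zero]
    refine Finset.sum_eq_zero fun c hc => ?_
    by_cases hcd : c = d
    · subst hcd; rw [w_self]; simp
    · rw [Finset.prod_eq_zero (Finset.mem_erase.2 ⟨Ne.symm hcd, hd⟩)
        (by rw [wout_zero (by simp), mul_zero])]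
      simp
  rw [show m + 1 = V.card from (mem_pc.1 hV).symm, ← sum_win_erase, Finset.sum_mul]
  refine Finset.sum_congr rfl fun c hc => ?_
  have hcd : c ≠ d := fun h => hd (h ▸ hc)
  have hset : V.erase c ∪ {c, d} = insert d V := by
    ext x
    simp only [Finset.mem_union, Finset.mem_erase, Finset.mem_insert, Finset.mem_singleton]
    constructor
    · rintro (⟨_, h⟩ | h | h)
      · exact Or.inr h
      · exact Or.inr (h ▸ hc)
      · exact Or.inl h
    · rintro (h | h)
      · exact Or.inr (Or.inr h)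
      · by_cases hx : x = c
        · exact Or.inr (Or.inl hx)
        · exact Or.inl ⟨hx, h⟩
  have e2 : ∀ t, wout t ({c, d} : Finset (Fin N)) = w t c * w t d :=
    fun t => Finset.prod_pair hcd
  rw [hset, Finset.prod_mul_distrib (f := fun t => (X t : A N)),
    Finset.prod_mul_distrib (f := fun t => (X t : A N)),
    ← Finset.mul_prod_erase V (fun t => (X t : A N)) hc,
    ← Finset.mul_prod_erase V (fun t => w t d) hc]
  simp only [e2, Finset.prod_mul_distrib, win]
  ring

/-- the expansion of a weighted sum over hanging cliques -/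
lemma phi_sum (a n : ℕ) (h : n ≤ a) (g : Fin N → A N) :
    ∑ V ∈ pc N (n + 1), (∏ v ∈ V, X v * g v) * phi a V =
      ∑ T ∈ pc N n, (∏ t ∈ T, X t * g t) * (∑ J, X J * (g J * wout J T) * z (a + 1) {J})
        + K (q ^ (n + 1) * qn (a - n)) * ee (a + 1) N *
          ∑ V ∈ pc N (n + 1), ∏ v ∈ V, X v * g v := by
  have e := marked_element (N := N) n
    (fun J T => (∏ t ∈ T, X t * g t) * (X J * (g J * wout J T) * z (a + 1) {J}))
    (fun J T hJ => by simp [wout_zero hJ])
  rw [Finset.mul_sum (s := pc N (n + 1))]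
  rw [Finset.sum_congr rfl (fun T (_ : T ∈ pc N n) => Finset.mul_sum Finset.univ
    (fun J => X J * (g J * wout J T) * z (a + 1) {J}) (∏ t ∈ T, X t * g t)), ← e,
    ← Finset.sum_add_distrib]
  refine Finset.sum_congr rfl fun V hV => ?_
  have hc := mem_pc.1 hV
  rw [phi_eq a V (by omega), hc, show a + 1 - (n + 1) = a - n by omega, mul_add,
    Finset.mul_sum (s := V)]
  refine congrArg₂ (· + ·) (Finset.sum_congr rfl fun J hJ => ?_) ?_
  · rw [← Finset.mul_prod_erase V (fun v => X v * g v) hJ]; ring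
  · ring

lemma tot_succ (a n : ℕ) (h : n ≤ a) :
    tot (N := N) a (n + 1) =
      tot (a + 1) n + K (q ^ (n + 1) * qn (a - n)) * (ee (a + 1) N * ee (n + 1) N) := by
  have e := phi_sum (N := N) a n h (fun _ => 1)
  simp only [mul_one, one_mul, ee_eq] at e
  rw [tot, e, tot, mul_assoc]
  rfl

lemma join2_eq (a n : ℕ) (h : n ≤ a) (S : Finset (Fin N)) :
    join2 a (n + 1) S =
      Psi n (phi (a + 1)) S + K (q ^ (n + 1) * qn (a - n)) * ee (a + 1) N * z (n + 1) S := by
  rw [join2, phi_sum a n h (fun v => wout v S)]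
  refine congrArg₂ (· + ·) (Finset.sum_congr rfl fun T _ => ?_) rfl
  by_cases hd : Disjoint T S
  · refine congrArg₂ (· * ·) rfl ?_
    refine Finset.sum_congr rfl fun J _ => ?_
    rw [wout, wout, wout, Finset.prod_union hd]; ring
  · rw [Finset.not_disjoint_iff] at hd
    obtain ⟨x, hxT, hxS⟩ := hd
    rw [Finset.prod_eq_zero hxT (by rw [wout_zero hxS, mul_zero])]
    simp

lemma join1_eq (a n : ℕ) (h : n ≤ a) (x : Fin N) :
    join1 a (n + 1) x =
      cut (a + 1) n x + K (q ^ (n + 1) * qn (a - n)) * ee (a + 1) N * z (n + 1) {x} := by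
  rw [join1, phi_sum a n h (fun v => w v x), z_singleton]
  refine congrArg₂ (· + ·) (Finset.sum_congr rfl fun T _ => ?_) rfl
  by_cases hd : x ∈ T
  · rw [Finset.prod_eq_zero hd (by rw [w_self, mul_zero])]; simp
  · refine congrArg₂ (· * ·) rfl ?_
    refine Finset.sum_congr rfl fun J _ => ?_
    rw [wout, wout, Finset.prod_insert hd]

lemma tot_zero (a : ℕ) : tot (N := N) a 0 = K (qn (a + 1)) * ee (a + 1) N := by
  simp [tot, pc, phi_empty]

lemma join1_zero (a : ℕ) (h : Fin N) : join1 a 0 h = K (qn (a + 1)) * ee (a + 1) N := by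
  simp [join1, pc, phi_empty]

lemma cut_zero (a : ℕ) (h : Fin N) :
    cut a 0 h = z (a + 1) {h} + K (q * qn a) * ee (a + 1) N := by
  simp [cut, pc, phi_singleton]

lemma ee_split (n : ℕ) (h : Fin N) :
    ee (n + 1) N =
      ∑ T ∈ (pc N (n + 1)).filter (h ∉ ·), ∏ t ∈ T, (X t : A N)
        + X h * ∑ T ∈ (pc N n).filter (h ∉ ·), ∏ t ∈ T, (X t : A N) := by
  rw [← ee_eq, ← Finset.sum_filter_add_sum_filter_not (pc N (n + 1)) (h ∉ ·)]
  congr 1
  rw [Finset.mul_sum]
  refine Finset.sum_bij' (fun T _ => T.erase h) (fun T _ => insert h T) ?_ ?_ ?_ ?_ ?_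
  · intro T hT
    simp only [Finset.mem_filter, not_not, mem_pc] at hT
    simp only [Finset.mem_filter, mem_pc, Finset.card_erase_of_mem hT.2]
    exact ⟨by omega, Finset.notMem_erase h T⟩
  · intro T hT
    simp only [Finset.mem_filter, mem_pc] at hT
    simp only [Finset.mem_filter, not_not, mem_pc, Finset.card_insert_of_notMem hT.2]
    exact ⟨by omega, Finset.mem_insert_self h T⟩
  · intro T hT
    simp only [Finset.mem_filter, not_not] at hT
    exact Finset.insert_erase hT.2
  · intro T hT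
    simp only [Finset.mem_filter] at hT
    exact Finset.erase_insert hT.2
  · intro T hT
    simp only [Finset.mem_filter, not_not] at hT
    exact (Finset.mul_prod_erase T (fun t => (X t : A N)) hT.2).symm

lemma prod_win_wout {h : Fin N} {T : Finset (Fin N)} (hh : h ∉ T) :
    (∏ t ∈ T, X t * w t h) * wout h T = qq ^ T.card * ∏ t ∈ T, X t := by
  rw [wout, ← Finset.prod_mul_distrib]
  calc ∏ t ∈ T, X t * w t h * w h t = ∏ t ∈ T, qq * X t :=
        Finset.prod_congr rfl fun t ht => by
          rw [mul_assoc, w_mul_swap (ne_of_mem_of_not_mem ht hh), mul_comm]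
    _ = _ := by rw [Finset.prod_mul_distrib, Finset.prod_const]

lemma cut_term (a d : ℕ) (hd : d + 1 ≤ a) {h : Fin N} {T : Finset (Fin N)} (hh : h ∉ T)
    (hc : T.card = d + 1) :
    (∏ t ∈ T, X t * w t h) * phi a (insert h T) =
      qq ^ (d + 1) * (∏ t ∈ T, X t) * z (a + 1) {h}
      + (∑ J ∈ T, (∏ t ∈ T.erase J, X t * w t h) *
          (X J * (w J h * w J h) * wout J (T.erase J) * z (a + 1) {J}))
      + K (q ^ (d + 2) * qn (a - (d + 1))) * ee (a + 1) N * ∏ t ∈ T, X t * w t h := by
  have hci : (insert h T).card = d + 2 := by rw [Finset.card_insert_of_notMem hh, hc]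
  rw [phi_eq a _ (by omega), hci, show a + 1 - (d + 2) = a - (d + 1) by omega,
    Finset.sum_insert hh, Finset.erase_insert hh, mul_add, mul_add, ← mul_assoc,
    prod_win_wout hh, hc, Finset.mul_sum (s := T)]
  refine congrArg₂ (· + ·) (congrArg₂ (· + ·) rfl (Finset.sum_congr rfl fun J hJ => ?_)) ?_
  · have hJh : h ≠ J := fun e => hh (e ▸ hJ)
    rw [Finset.erase_insert_of_ne hJh, wout, wout,
      Finset.prod_insert (fun hx => hh (Finset.mem_of_mem_erase hx)),
      ← Finset.mul_prod_erase T (fun t => X t * w t h) hJ]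
    ring
  · ring

lemma cut_square (a : ℕ) {h : Fin N} {T : Finset (Fin N)} (hh : h ∉ T) :
    ∑ J, X J * (w J h * w J h) * wout J T * z (a + 1) {J} =
      (1 + qq) * phi (a + 1) (insert h T) - qq * phi (a + 1) T
        + qq * (X h * wout h T * z (a + 1) {h}) := by
  have hadd : qq * (X h * wout h T * z (a + 1) {h}) =
      ∑ J, if J = h then qq * (X J * wout J T * z (a + 1) {J}) else 0 := by
    simp
  rw [hadd, phi, phi, Finset.mul_sum, Finset.mul_sum, ← Finset.sum_sub_distrib,
    ← Finset.sum_add_distrib]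
  refine Finset.sum_congr rfl fun J _ => ?_
  rw [wout, wout, Finset.prod_insert hh]
  by_cases hJ : J = h
  · subst hJ; rw [w_self, if_pos rfl]; ring
  · rw [w_sq hJ, if_neg hJ]; ring

lemma cut_succ (a d : ℕ) (hd : d + 1 ≤ a) (h : Fin N) :
    cut a (d + 1) h = (1 + qq) * cut (a + 1) d h - qq * join1 (a + 1) d h
      + qq ^ (d + 1) * ee (d + 1) N * z (a + 1) {h}
      + K (q ^ (d + 2) * qn (a - (d + 1))) * ee (a + 1) N * z (d + 1) {h} := by
  set κ : A N := K (q ^ (d + 2) * qn (a - (d + 1))) * ee (a + 1) N with hκ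
  set P : ℕ → A N := fun m => ∑ T ∈ (pc N m).filter (h ∉ ·), ∏ t ∈ T, X t with hP
  have e := marked_element (N := N) d
    (fun J T => (∏ t ∈ T, X t * w t h) *
      (X J * (w J h * w J h) * wout J T * z (a + 1) {J}))
    (fun J T hJ => by simp [wout_zero hJ])
  have step1 : cut a (d + 1) h = qq ^ (d + 1) * P (d + 1) * z (a + 1) {h}
      + (∑ T ∈ pc N d, ∑ J, (∏ t ∈ T, X t * w t h) *
          (X J * (w J h * w J h) * wout J T * z (a + 1) {J}))
      + κ * z (d + 1) {h} := by
    simp only [hP]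
    rw [← e, ← z_singleton (d + 1) h, Finset.mul_sum (a := κ), Finset.sum_filter, Finset.mul_sum,
      Finset.sum_mul, ← Finset.sum_add_distrib, ← Finset.sum_add_distrib, cut]
    refine Finset.sum_congr rfl fun T hT => ?_
    by_cases hh : h ∈ T
    · rw [if_neg (not_not.2 hh), Finset.prod_eq_zero hh (by rw [w_self, mul_zero]),
        mul_zero, zero_mul, zero_mul, mul_zero, zero_add, add_zero]
      refine (Finset.sum_eq_zero fun J hJ => ?_).symm
      by_cases hJh : J = h
      · subst hJh; rw [w_self]; ring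
      · rw [Finset.prod_eq_zero (Finset.mem_erase.2 ⟨Ne.symm hJh, hh⟩)
          (by rw [w_self, mul_zero]), zero_mul]
    · rw [if_pos hh, cut_term a d hd hh (mem_pc.1 hT), hκ]
  have step2 : (∑ T ∈ pc N d, ∑ J, (∏ t ∈ T, X t * w t h) *
        (X J * (w J h * w J h) * wout J T * z (a + 1) {J})) =
      (1 + qq) * cut (a + 1) d h - qq * join1 (a + 1) d h
        + qq ^ (d + 1) * (X h * P d) * z (a + 1) {h} := by
    simp only [hP]
    rw [Finset.sum_filter, cut, join1, Finset.mul_sum, Finset.mul_sum, Finset.mul_sum,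
      Finset.mul_sum, Finset.sum_mul, ← Finset.sum_sub_distrib, ← Finset.sum_add_distrib]
    refine Finset.sum_congr rfl fun T hT => ?_
    by_cases hh : h ∈ T
    · rw [Finset.prod_eq_zero hh (by rw [w_self, mul_zero]), if_neg (not_not.2 hh)]
      simp
    · rw [if_pos hh, ← Finset.mul_sum, cut_square a hh]
      have hq := prod_win_wout (N := N) hh
      rw [mem_pc.1 hT] at hq
      rw [pow_succ]
      linear_combination qq * X h * z (a + 1) {h} * hq
  rw [step1, step2, ee_split d h]
  ring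

end Vale.Agent.P066
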