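import Vale.Agent.P066.States
import Vale.Agent.P066.Bridge

/-!
Expansion in products of elementary functions, in colour-by-colour form, for `h i ≤ i + 2`.
-/

open scoped BigOperators

namespace Vale.Agent.P066.TwoStep

open Vale.Agent.P066

variable {N n : ℕ}

lemma pairWt_eq (lo : ℕ → ℕ) (f : Fin n → Fin N) (p : Fin n × Fin n) (hp : ¬ adj lo p.1 p.2) :
    pairWt lo f p = 1 := if_neg hp

lemma wt_eq (h : ℕ → ℕ) (lo : ℕ → ℕ)
    (hlo : ∀ a b : Fin n, adj lo a b ↔ (a < b ∧ (b : ℕ) ≤ h a))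
    (f : Fin n → Fin N) :
    wt lo f = if (∀ a b : Fin n, a < b → (b : ℕ) ≤ h a → f a ≠ f b) then
      (Polynomial.X : Polynomial ℤ) ^ (Finset.univ.filter
        (fun p : Fin n × Fin n => p.1 < p.2 ∧ (p.2 : ℕ) ≤ h p.1 ∧ f p.1 < f p.2)).card
      else 0 := by
  classical
  split
  next hprop =>
    rw [← Finset.prod_const, Finset.prod_filter, wt]
    refine Finset.prod_congr rfl fun p _ => ?_
    by_cases hadj : adj lo p.1 p.2
    · have h' := (hlo p.1 p.2).1 hadj
      have hne := hprop p.1 p.2 h'.1 h'.2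
      rw [pairWt, if_pos hadj, psi]
      by_cases hlt : f p.1 < f p.2
      · rw [if_pos hlt, if_pos ⟨h'.1, h'.2, hlt⟩]; rfl
      · rw [if_neg hlt, if_neg hne, if_neg fun hh => hlt hh.2.2]
    · rw [pairWt_eq lo f p hadj, if_neg fun hh => hadj ((hlo p.1 p.2).2 ⟨hh.1, hh.2.1⟩)]
  next hprop =>
    push_neg at hprop
    obtain ⟨a, b, hab, hb, he⟩ := hprop
    refine Finset.prod_eq_zero (Finset.mem_univ (a, b)) ?_
    rw [pairWt, if_pos ((hlo a b).2 ⟨hab, hb⟩), psi]
    simp [he]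

/-- For a weakly increasing `h` with `i ≤ h i ≤ i + 2`, the chromatic quasisymmetric function of
the graph with edges `a < b ≤ h a` is an `N[q]`-combination of products of elementary symmetric
functions, with the same coefficients in every number of colours. -/
theorem two_step_expansion (n : ℕ) (h : ℕ → ℕ)
    (hmono : ∀ i j, i ≤ j → j < n → h i ≤ h j)
    (hlow : ∀ i, i < n → i ≤ h i) (hwidth : ∀ i, i < n → h i ≤ i + 2) :
    ∃ c : n.Partition → Polynomial ℕ, ∀ N : ℕ,
      (∑ f ∈ Finset.univ.filter (fun f : Fin n → Fin N =>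
          ∀ a b : Fin n, a < b → (b : ℕ) ≤ h a → f a ≠ f b),
        MvPolynomial.C ((Polynomial.X : Polynomial ℤ) ^ (Finset.univ.filter
            (fun p : Fin n × Fin n => p.1 < p.2 ∧ (p.2 : ℕ) ≤ h p.1 ∧ f p.1 < f p.2)).card) *
          ∏ a, (MvPolynomial.X (f a) : MvPolynomial (Fin N) (Polynomial ℤ))) =
      ∑ p : n.Partition, MvPolynomial.C ((c p).map (Nat.castRingHom ℤ)) *
        MvPolynomial.esymmPart (Fin N) (Polynomial ℤ) p := by
  classical
  let lo : ℕ → ℕ := fun j =>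
    if hj : j < n then Nat.find (⟨j, hlow j hj⟩ : ∃ i, j ≤ h i) else 0
  have hlo1 : ∀ j, j < n → lo j ≤ j := by
    intro j hj
    simp only [lo, dif_pos hj]
    exact Nat.find_min' _ (hlow j hj)
  have hspec : ∀ j, j < n → j ≤ h (lo j) := by
    intro j hj
    simp only [lo, dif_pos hj]
    exact Nat.find_spec (⟨j, hlow j hj⟩ : ∃ i, j ≤ h i)
  have hmin : ∀ j i, j < n → j ≤ h i → lo j ≤ i := by
    intro j i hj hi
    simp only [lo, dif_pos hj]
    exact Nat.find_min' _ hi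
  have hlo2 : ∀ j, j < n → j ≤ lo j + 2 := fun j hj =>
    le_trans (hspec j hj) (hwidth _ (lt_of_le_of_lt (hlo1 j hj) hj))
  have hlomono : ∀ j, j + 1 < n → lo j ≤ lo (j + 1) := fun j hj =>
    hmin j _ (by omega) (le_trans (Nat.le_succ j) (hspec (j + 1) hj))
  have hadj : ∀ a b : Fin n, adj lo a b ↔ (a < b ∧ (b : ℕ) ≤ h a) := by
    intro a b
    constructor
    · rintro ⟨hab, hl⟩
      exact ⟨hab, le_trans (hspec b b.isLt) (hmono _ _ hl a.isLt)⟩
    · rintro ⟨hab, hb⟩
      exact ⟨hab, hmin b a b.isLt hb⟩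
  obtain ⟨c, hc⟩ := (chi_mem lo n hlo1 hlo2 hlomono).to_partition
  refine ⟨c, fun N => ?_⟩
  rw [← hc N, chi, Finset.sum_filter]
  refine Finset.sum_congr rfl fun f _ => ?_
  rw [wt_eq h lo hadj f]
  split
  · rfl
  · simp

end Vale.Agent.P066.TwoStep
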